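import Vale.Agent.P281.H364.S.Vol
import Vale.Agent.P281.H64.TS.Spec2

/-!
# P281, project T-S, block D2 (helper364): Grauert's theorem, `h⁰ = 1`
-/

open Set Filter Metric
open scoped Topology

noncomputable section

set_option linter.unusedSectionVars false

namespace Vale.Agent.P281.H364.S

open Vale.Agent.P281.H64.TK
open Vale.Agent.P281.H64.TK.TS (HolD H20One HolFam GrauertStmt)
open Vale.Agent.P281.H64 (Cm)
open Vale.Agent.P281.H603.K (exists_trans)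
open Vale.Agent.P299.H720 (LocBdd montel_full)

variable {p d : ℕ} {E Γ : Type} [TopologicalSpace E] [Group Γ] [MulAction Γ E]
variable {𝓕 : Fam p d E Γ} {t₁ : Cm p}

/-- Forms normalised at one point, which separates the forms, are holomorphic in the parameter. -/
theorem analytic_family [Finite Γ] {T' : Set (Cm p)} (hT' : T' ⊆ 𝓕.T) (hTo : IsOpen T')
    {i₀ : Fin 𝓕.N} {δ₀ : Γ} {z₀ : Cm d} (hz₀ : z₀ ∈ ball (0 : Cm d) 3)
    {S : Cm p → Fin 𝓕.N → Γ → Cm d → ℂ} (hV : ∀ t ∈ T', HForm 𝓕 t (S t))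
    (h1 : ∀ t ∈ T', S t i₀ δ₀ z₀ = 1) (hu : ∀ t ∈ T', Sep 𝓕 t i₀ δ₀ z₀) :
    ∀ i δ, ∀ t ∈ T', ∀ z ∈ ball (0 : Cm d) 3,
      AnalyticAt ℂ (fun q : Cm p × Cm d => S q.1 i δ q.2) (t, z) := by
  -- the rule near a point
  have hrule : ∀ t₁ ∈ T', ∀ i j, ∀ z ∈ ball (0 : Cm d) 3, ∀ (γ : Γ) (θ : Cm p × Cm d → Cm d),
      AnalyticAt ℂ θ (t₁, z) → θ (t₁, z) ∈ ball (0 : Cm d) 3 →
      (∀ᶠ q in 𝓝 (t₁, z), 𝓕.σ i q.1 q.2 = γ • 𝓕.σ j q.1 (θ q)) → ∀ δ, ∀ᶠ q in 𝓝 (t₁, z),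
        S q.1 i δ q.2 = S q.1 j (δ * γ) (θ q) * Jt θ q := by
    intro t₁ ht₁ i j z hz γ θ k1 k2 k3 δ
    have m4 : ∀ᶠ q : Cm p × Cm d in 𝓝 (t₁, z), q.1 ∈ T' :=
      (continuous_fst.tendsto (t₁, z)).eventually (hTo.mem_nhds ht₁)
    have m5 : ∀ᶠ q : Cm p × Cm d in 𝓝 (t₁, z), q.2 ∈ ball (0 : Cm d) 3 :=
      (continuous_snd.tendsto (t₁, z)).eventually (isOpen_ball.mem_nhds hz)
    filter_upwards [k1.eventually_analyticAt, k1.continuousAt.eventually (isOpen_ball.mem_nhds k2),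
      k3.eventually_nhds, m4, m5] with q m1 m2 m3 m4 m5
    exact (hV q.1 m4).law i j q.2 m5 γ θ m1 m2 m3 δ
  -- continuity
  have hcont : ∀ t₁ ∈ T', ∀ i δ, ∀ z ∈ ball (0 : Cm d) 3,
      ContinuousAt (fun q : Cm p × Cm d => S q.1 i δ q.2) (t₁, z) := by
    intro t₁ ht₁ i δ z hz
    have hsq : Sq 𝓕 (𝓝 t₁) id t₁ S := by
      refine ⟨tendsto_id, ?_, fun i j z hz γ θ k1 k2 k3 δ => ⟨0, ?_⟩⟩
      · filter_upwards [hTo.mem_nhds ht₁] with t ht using (hV t ht).hol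
      · refine tendsto_const_nhds.congr' ?_
        rw [← nhds_prod_eq]
        filter_upwards [hrule t₁ ht₁ i j z hz γ θ k1 k2 k3 δ] with q hq
        simp only [id_eq]
        rw [hq]; simp
    have h0 : Tendsto (fun t => S t i₀ δ₀ z₀) (𝓝 t₁) (𝓝 1) := by
      refine tendsto_const_nhds.congr' ?_
      filter_upwards [hTo.mem_nhds ht₁] with t ht using (h1 t ht).symm
    obtain ⟨v, -, hv⟩ := hsq.conv' (hT' ht₁) (hu t₁ ht₁) hz₀ h0
    have h1 := hv i δ z hz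
    rw [← nhds_prod_eq] at h1
    exact continuousAt_of_tendsto_nhds h1
  -- difference quotients
  have hdiff : ∀ t₁ ∈ T', ∀ x : Cm p, ∀ i δ, ∀ z ∈ ball (0 : Cm d) 3,
      DifferentiableAt ℂ (fun s : ℂ => S (t₁ + s • x) i δ z) 0 := by
    intro t₁ ht₁ x i δ z hz
    have hlim0 : Tendsto (fun s : ℂ => t₁ + s • x) (𝓝 0) (𝓝 t₁) := by
      have : Continuous fun s : ℂ => t₁ + s • x := by fun_prop
      simpa using this.tendsto 0
    have hlim : Tendsto (fun s : ℂ => t₁ + s • x) (𝓝[≠] (0 : ℂ)) (𝓝 t₁) :=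
      hlim0.mono_left nhdsWithin_le_nhds
    have hTe : ∀ᶠ s : ℂ in 𝓝[≠] (0 : ℂ), t₁ + s • x ∈ T' :=
      hlim.eventually (hTo.mem_nhds ht₁)
    have hsq : Sq 𝓕 (𝓝[≠] (0 : ℂ)) (fun s => t₁ + s • x) t₁
        (fun s i δ z => s⁻¹ * (S (t₁ + s • x) i δ z - S t₁ i δ z)) := by
      refine ⟨hlim, ?_, fun i j z hz γ θ k1 k2 k3 δ => ?_⟩
      · filter_upwards [hTe] with s hs i δ
        exact (((hV _ hs).hol i δ).sub ((hV t₁ ht₁).hol i δ)).const_mul _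
      · have hua : AnalyticAt ℂ (S t₁ j (δ * γ)) (θ (t₁, z)) :=
          MF.analyticAt_of_differentiableOn isOpen_ball ((hV t₁ ht₁).hol j (δ * γ)) k2
        have hJ : AnalyticAt ℂ (Jt θ) (t₁, z) := analyticAt_Jt k1
        set G : Cm p × Cm d → ℂ := fun q => S t₁ j (δ * γ) (θ q) * Jt θ q with hG
        have hGa : AnalyticAt ℂ G (t₁, z) := by
          have e4 : AnalyticAt ℂ (fun q => S t₁ j (δ * γ) (θ q)) (t₁, z) := hua.comp k1
          exact e4.mul hJ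
        have hGs := hGa.hasStrictFDerivAt
        refine ⟨fderiv ℂ G (t₁, z) (x, 0), ?_⟩
        have hx : Tendsto (fun q : ℂ × Cm d => (t₁ + q.1 • x, q.2)) (𝓝[≠] (0 : ℂ) ×ˢ 𝓝 z)
            (𝓝 (t₁, z)) := by
          rw [nhds_prod_eq]
          exact (hlim.comp tendsto_fst).prodMk tendsto_snd
        have hy : Tendsto (fun q : ℂ × Cm d => (t₁, q.2)) (𝓝[≠] (0 : ℂ) ×ˢ 𝓝 z)
            (𝓝 (t₁, z)) := by
          rw [nhds_prod_eq]
          exact tendsto_const_nhds.prodMk tendsto_snd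
        have hne : ∀ᶠ q : ℂ × Cm d in 𝓝[≠] (0 : ℂ) ×ˢ 𝓝 z, q.1 ≠ 0 :=
          tendsto_fst.eventually self_mem_nhdsWithin
        have key : Tendsto (fun q : ℂ × Cm d => q.1⁻¹ * (G (t₁ + q.1 • x, q.2) - G (t₁, q.2)))
            (𝓝[≠] (0 : ℂ) ×ˢ 𝓝 z) (𝓝 (fderiv ℂ G (t₁, z) (x, 0))) := by
          have h4 : (fun q : ℂ × Cm d => G (t₁ + q.1 • x, q.2) - G (t₁, q.2) -
              fderiv ℂ G (t₁, z) ((t₁ + q.1 • x, q.2) - (t₁, q.2))) =o[𝓝[≠] (0 : ℂ) ×ˢ 𝓝 z]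
              fun q : ℂ × Cm d => ((t₁ + q.1 • x, q.2) - (t₁, q.2) : Cm p × Cm d) :=
            hGs.isLittleO.comp_tendsto (hx.prodMk_nhds hy)
          have h5 : ∀ q : ℂ × Cm d, ((t₁ + q.1 • x, q.2) - (t₁, q.2) : Cm p × Cm d) =
              q.1 • (x, (0 : Cm d)) := by
            intro q
            ext <;> simp
          have h6 : (fun q : ℂ × Cm d => ((t₁ + q.1 • x, q.2) - (t₁, q.2) : Cm p × Cm d))
              =O[𝓝[≠] (0 : ℂ) ×ˢ 𝓝 z] fun q : ℂ × Cm d => q.1 := by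
            refine Asymptotics.IsBigO.of_bound ‖(x, (0 : Cm d))‖ (Eventually.of_forall fun q => ?_)
            rw [h5, norm_smul, mul_comm]
          have h7 := (h4.trans_isBigO h6).tendsto_inv_smul_nhds_zero
          have h8 := h7.add_const (fderiv ℂ G (t₁, z) (x, 0))
          rw [zero_add] at h8
          refine h8.congr' ?_
          filter_upwards [hne] with q hq
          rw [h5, map_smul, smul_eq_mul, smul_eq_mul]
          field_simp
          ring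
        refine key.congr' ?_
        have hr := hrule t₁ ht₁ i j z hz γ θ k1 k2 k3 δ
        filter_upwards [hx.eventually hr, hy.eventually hr] with q m1 m2
        simp only [hG] at m1 m2 ⊢
        rw [m1, m2]
        ring
    have h0 : Tendsto (fun s : ℂ => s⁻¹ * (S (t₁ + s • x) i₀ δ₀ z₀ - S t₁ i₀ δ₀ z₀)) (𝓝[≠] (0 : ℂ))
        (𝓝 0) := by
      refine tendsto_const_nhds.congr' ?_
      filter_upwards [hTe] with s hs
      rw [h1 _ hs, h1 _ ht₁]; simp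
    obtain ⟨v, -, hv⟩ := hsq.conv' (hT' ht₁) (hu t₁ ht₁) hz₀ h0
    have h1 := (hv i δ z hz).comp
      ((tendsto_id (x := 𝓝[≠] (0 : ℂ))).prodMk (tendsto_const_nhds (x := z)))
    have h5 : HasDerivAt (fun s : ℂ => S (t₁ + s • x) i δ z) (v i δ z) 0 := by
      rw [hasDerivAt_iff_tendsto_slope_zero]
      refine h1.congr fun s => ?_
      simp
    exact h5.differentiableAt
  intro i δ t ht z hz
  have hO : IsOpen (T' ×ˢ ball (0 : Cm d) 3) := hTo.prod isOpen_ball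
  refine MF.analyticAt_of_differentiableOn hO ?_ ⟨ht, hz⟩
  refine H603.K.osgood_dir ((Pi.basisFun ℂ (Fin p)).prod (Pi.basisFun ℂ (Fin d))) hO
    (fun x hx => hcont x.1 hx.1 i δ x.2 hx.2) fun x hx k => ?_
  rcases k with k | k
  · simp only [Module.Basis.prod_apply, LinearMap.coe_inl, LinearMap.coe_inr, Sum.elim_inl,
      Function.comp_apply, Prod.smul_mk, smul_zero, Prod.fst_add, Prod.snd_add, add_zero]
    exact hdiff x.1 hx.1 _ i δ x.2 hx.2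
  · simp only [Module.Basis.prod_apply, LinearMap.coe_inl, LinearMap.coe_inr, Sum.elim_inr,
      Function.comp_apply, Prod.smul_mk, smul_zero, Prod.fst_add, Prod.snd_add, add_zero]
    have h1 : DifferentiableAt ℂ (S x.1 i δ) (x.2 + (0 : ℂ) • (Pi.basisFun ℂ (Fin d)) k) := by
      rw [zero_smul, add_zero]
      exact ((hV x.1 hx.1).hol i δ).differentiableAt (isOpen_ball.mem_nhds hx.2)
    have h2 : DifferentiableAt ℂ (fun s : ℂ => x.2 + s • (Pi.basisFun ℂ (Fin d)) k) 0 := by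
      fun_prop
    exact DifferentiableAt.comp (g := S x.1 i δ)
      (f := fun s : ℂ => x.2 + s • (Pi.basisFun ℂ (Fin d)) k) 0 h1 h2


theorem hform_of {t : Cm p} (ht : t ∈ 𝓕.T) [Subsingleton Γ] {s : Fin 𝓕.N → Cm d → ℂ}
    (hs : HolD (𝓕.at t ht) s) : HForm 𝓕 t (fun i _ => s i) := by
  refine ⟨fun i δ => hs.hol i, fun i j z hz γ θ k1 k2 k3 δ => ?_⟩
  have hγ : γ = 1 := Subsingleton.elim _ _
  have hsl : Tendsto (fun u : Cm d => (t, u)) (𝓝 z) (𝓝 (t, z)) :=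
    (Continuous.prodMk_right t).tendsto z
  have k4 : AnalyticAt ℂ (fun u => θ (t, u)) z :=
    AnalyticAt.comp (g := θ) (f := fun u : Cm d => (t, u)) k1
      (analyticAt_const.prod analyticAt_id)
  have k5 : ∀ᶠ u in 𝓝 z, (𝓕.at t ht).σ i u = (𝓕.at t ht).σ j (θ (t, u)) := by
    filter_upwards [hsl.eventually k3] with u hu
    show 𝓕.σ i t u = 𝓕.σ j t (θ (t, u))
    have hu' : 𝓕.σ i t u = γ • 𝓕.σ j t (θ (t, u)) := hu
    rwa [hγ, one_smul] at hu'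
  have := hs.change i j z hz (θ (t, z)) k2 (fun u => θ (t, u)) k4 rfl k5
  show s i z = s j (θ (t, z)) * Jt θ (t, z)
  rw [this, jac_slice k1 (Filter.EventuallyEq.rfl)]

theorem holD_of {t : Cm p} (ht : t ∈ 𝓕.T) {s : Fin 𝓕.N → Γ → Cm d → ℂ} [Subsingleton Γ]
    (hs : HForm 𝓕 t s) : HolD (𝓕.at t ht) (fun i => s i 1) := by
  refine ⟨fun i => hs.hol i 1, fun i j z hz w hw θ k1 k2 k3 => ?_⟩
  have k3' : ∀ᶠ u in 𝓝 z, 𝓕.σ i t u = (1 : Γ) • 𝓕.σ j t (θ u) := by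
    filter_upwards [k3] with u hu
    rw [one_smul]; exact hu
  have k4 : 𝓕.σ i t z = (1 : Γ) • 𝓕.σ j t w := by
    have := k3'.self_of_nhds
    rwa [k2] at this
  obtain ⟨θ₂, m1, m2, m3⟩ := exists_trans 𝓕 ht hz hw k4
  have hsl : Tendsto (fun u : Cm d => (t, u)) (𝓝 z) (𝓝 (t, z)) :=
    (Continuous.prodMk_right t).tendsto z
  have he : θ =ᶠ[𝓝 z] fun u => θ₂ (t, u) := by
    filter_upwards [hsl.eventually m3, k3', k1.continuousAt.eventually
      (isOpen_ball.mem_nhds (show θ z ∈ ball (0 : Cm d) 3 by rw [k2]; exact hw))] with u n1 n2 n3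
    exact (n1.2.2.2.2 _ n3 1 n2).2
  have := hs.law i j z hz 1 θ₂ m1 (by rw [m2]; exact hw) (m3.mono fun q hq => hq.2.2.2.1) 1
  rw [mul_one] at this
  rw [this, jac_slice m1 he, m2]

/-- the point `z₀` separates the forms, if `h⁰ = 1` and some form does not vanish at `z₀` -/
theorem sep_of {t : Cm p} (ht : t ∈ 𝓕.T) [Subsingleton Γ] (h : H20One (𝓕.at t ht))
    {i₀ : Fin 𝓕.N} {z₀ : Cm d} (hz₀ : z₀ ∈ ball (0 : Cm d) 3) {g : Fin 𝓕.N → Γ → Cm d → ℂ}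
    (hg : HForm 𝓕 t g) (hne : g i₀ 1 z₀ ≠ 0) : Sep 𝓕 t i₀ 1 z₀ := by
  obtain ⟨s, hs, -, hall⟩ := h
  obtain ⟨c, hc⟩ := hall _ (holD_of ht hg)
  intro k hk hk0 i δ z hz
  obtain ⟨c', hc'⟩ := hall _ (holD_of ht hk)
  have e1 : g i₀ 1 z₀ = c * s i₀ z₀ := hc i₀ z₀ hz₀
  have e2 : k i₀ 1 z₀ = c' * s i₀ z₀ := hc' i₀ z₀ hz₀
  have e3 : s i₀ z₀ ≠ 0 := by
    intro h0
    rw [h0, mul_zero] at e1
    exact hne e1
  rw [hk0, zero_eq_mul] at e2
  have e4 : c' = 0 := e2.resolve_right e3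
  have e5 : k i 1 z = c' * s i z := hc' i z hz
  rw [Subsingleton.elim δ 1, e5, e4, zero_mul]

/-- **D2** (Grauert, `h⁰ = 1`). -/
theorem grauert : GrauertStmt := by
  intro p d E Γ _ _ _ _ _ _ _ 𝓕 _ h t₀ ht₀
  classical
  have hfin : Finite Γ := inferInstance
  obtain ⟨s₀, hs₀, ⟨i₀, z₀, hz₀, h0⟩, -⟩ := h t₀ ht₀
  set T' : Set (Cm p) := {t | t ∈ 𝓕.T ∧ ∃ g : Fin 𝓕.N → Γ → Cm d → ℂ, HForm 𝓕 t g ∧
    g i₀ 1 z₀ ≠ 0} with hT'
  have hsub : T' ⊆ 𝓕.T := fun t ht => ht.1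
  have hmem : t₀ ∈ T' := ⟨ht₀, _, hform_of ht₀ hs₀, h0⟩
  have : Nonempty (Fin 𝓕.N) := ⟨i₀⟩
  -- `T'` is open
  have hTo : IsOpen T' := by
    refine isOpen_iff_mem_nhds.2 ?_
    rintro t₁ ⟨ht₁, g₁, hg₁, hne₁⟩
    have hsep := sep_of ht₁ (h t₁ ht₁) hz₀ hg₁ hne₁
    by_contra hcon
    have hfr : ∃ᶠ t in 𝓝 t₁, t ∉ T' := by
      rw [Filter.frequently_iff]
      intro U hU
      by_contra hno
      push Not at hno
      exact hcon (mem_of_superset hU fun t ht => by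
        by_contra h2
        exact h2 (hno t ht))
    have hNB : (𝓝 t₁ ⊓ 𝓟 {t | t ∉ T'}).NeBot := Filter.frequently_mem_iff_neBot.1 hfr
    set W : Ultrafilter (Cm p) := Ultrafilter.of (𝓝 t₁ ⊓ 𝓟 {t | t ∉ T'}) with hW
    have hW1 : (W : Filter (Cm p)) ≤ 𝓝 t₁ := (Ultrafilter.of_le _).trans inf_le_left
    have hW2 : ∀ᶠ t in (W : Filter (Cm p)), t ∉ T' :=
      (Ultrafilter.of_le _).trans inf_le_right (mem_principal_self _)
    have hW3 : ∀ᶠ t in (W : Filter (Cm p)), t ∈ 𝓕.T := hW1 (𝓕.isOpen.mem_nhds ht₁)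
    have hex : ∀ t : Cm p, ∃ (s : Fin 𝓕.N → Γ → Cm d → ℂ) (a : Fin 𝓕.N × Γ) (ζ : Cm d),
        ‖ζ‖ ≤ 1 ∧ (t ∈ 𝓕.T → HForm 𝓕 t s ∧ ‖s a.1 a.2 ζ‖ = 1 ∧
          ∀ i δ, ∀ z : Cm d, ‖z‖ ≤ 1 → ‖s i δ z‖ ≤ 1) := by
      intro t
      by_cases htD : t ∈ 𝓕.T
      swap
      · exact ⟨fun _ _ _ => 0, (i₀, 1), 0, by simp, fun h => absurd h htD⟩
      obtain ⟨s', hs', ⟨i₁, z₁, hz₁, hne⟩, -⟩ := h t htD
      have hs := hform_of htD hs'
      set s : Fin 𝓕.N → Γ → Cm d → ℂ := fun i _ => s' i with hsd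
      obtain ⟨a, ζ, hζ, hm⟩ := exists_max hs.hol
      have hpos : 0 < ‖s a.1 a.2 ζ‖ := by
        rw [norm_pos_iff]
        intro hz
        -- then the form is zero on the closed unit balls, hence everywhere
        obtain ⟨γ, j, w, hw, hγ⟩ := 𝓕.cover t htD (𝓕.σ i₁ t z₁)
        obtain ⟨θ, k1, k2, k3⟩ := 𝓕.hol i₁ j t htD z₁ hz₁ w (ball1 hw.le) γ hγ.symm
        have k4 := hs.law i₁ j z₁ hz₁ γ θ k1 (by rw [k2]; exact ball1 hw.le) k3 1
        have k5 := hm j (1 * γ) w hw.le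
        rw [hz, norm_zero] at k5
        have k6 : s j (1 * γ) w = 0 := norm_le_zero_iff.1 k5
        rw [k2, k6, zero_mul] at k4
        exact hne k4
      refine ⟨fun i δ z => ((‖s a.1 a.2 ζ‖ : ℝ) : ℂ)⁻¹ * s i δ z, a, ζ, hζ, fun _ => ⟨⟨?_, ?_⟩,
        ?_, ?_⟩⟩
      · exact fun i δ => (hs.hol i δ).const_mul _
      · intro i j z hz γ θ k1 k2 k3 δ
        have := hs.law i j z hz γ θ k1 k2 k3 δ
        simp only
        rw [this]; ring
      · simp only [norm_mul, norm_inv, Complex.norm_real, Real.norm_eq_abs, abs_of_pos hpos]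
        exact inv_mul_cancel₀ hpos.ne'
      · intro i δ z hz
        simp only [norm_mul, norm_inv, Complex.norm_real, Real.norm_eq_abs, abs_of_pos hpos]
        rw [inv_mul_le_one₀ hpos]
        exact hm i δ z hz
    choose f a ζ hζ hf using hex
    have hsq : Sq 𝓕 (W : Filter (Cm p)) id t₁ f := by
      refine ⟨hW1, ?_, fun i j z hz γ θ k1 k2 k3 δ => ⟨0, ?_⟩⟩
      · filter_upwards [hW3] with t ht' i δ using (hf t ht').1.hol i δ
      · have k4 : Tendsto (fun q : Cm p × Cm d => q) ((W : Filter (Cm p)) ×ˢ 𝓝 z)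
            (𝓝 (t₁, z)) := by
          rw [nhds_prod_eq]
          exact Filter.prod_mono hW1 le_rfl
        refine tendsto_const_nhds.congr' ?_
        filter_upwards [k4.eventually k1.eventually_analyticAt,
          k4.eventually (k1.continuousAt.eventually (isOpen_ball.mem_nhds k2)),
          k4.eventually k3.eventually_nhds, tendsto_fst.eventually hW3,
          tendsto_snd.eventually (isOpen_ball.mem_nhds hz)] with q m1 m2 m3 m4 m5
        have := (hf q.1 m4).1.law i j q.2 m5 γ θ m1 m2 m3 δ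
        simp only [id_eq]
        rw [this]; simp
    have hb : ∀ᶠ t in (W : Filter (Cm p)), ∀ i δ, ∀ z : Cm d, ‖z‖ ≤ 1 → ‖f t i δ z‖ ≤ 1 := by
      filter_upwards [hW3] with t ht' using (hf t ht').2.2
    obtain ⟨g, hg1, hlm⟩ := exists_lm (fun i δ => hsq.locBdd ht₁ hb i δ)
    have hgF : HForm 𝓕 t₁ g := by
      refine ⟨hg1, fun i j z hz γ θ k1 k2 k3 δ => ?_⟩
      have k4 : Tendsto (fun q : Cm p × Cm d => q) ((W : Filter (Cm p)) ×ˢ 𝓝 z) (𝓝 (t₁, z)) := by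
        rw [nhds_prod_eq]
        exact Filter.prod_mono hW1 le_rfl
      refine sub_eq_zero.1 (hlm.defect (B := 0) hsq.lim hz k1 k2 ?_)
      refine tendsto_const_nhds.congr' ?_
      filter_upwards [k4.eventually k1.eventually_analyticAt,
        k4.eventually (k1.continuousAt.eventually (isOpen_ball.mem_nhds k2)),
        k4.eventually k3.eventually_nhds, tendsto_fst.eventually hW3,
        tendsto_snd.eventually (isOpen_ball.mem_nhds hz)] with q m1 m2 m3 m4 m5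
      have := (hf q.1 m4).1.law i j q.2 m5 γ θ m1 m2 m3 δ
      simp only [id_eq]
      rw [this]; simp
    have hg0 : g i₀ 1 z₀ = 0 := by
      have k1 := hlm i₀ 1 z₀ hz₀ _ tendsto_const_nhds
      have k2 : ∀ᶠ t in (W : Filter (Cm p)), f t i₀ 1 z₀ = 0 := by
        filter_upwards [hW2, hW3] with t n1 n2
        by_contra hne
        exact n1 ⟨n2, f t, (hf t n2).1, hne⟩
      exact tendsto_nhds_unique k1 (tendsto_const_nhds.congr' (k2.mono fun t ht => ht.symm))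
    have hgz := hsep g hgF hg0
    obtain ⟨a₁, ha₁⟩ : ∃ a₁, ∀ᶠ k in (W : Filter (Cm p)), a k = a₁ := by
      have h3 : (univ : Set (Fin 𝓕.N × Γ)) ∈ W.map a := univ_mem
      obtain ⟨b, -, hb⟩ := (Ultrafilter.finite_biUnion_mem_iff (f := W.map a)
        (s := fun b : Fin 𝓕.N × Γ => ({b} : Set _)) (Set.finite_univ)).1 (by
          rw [show (⋃ b ∈ (univ : Set (Fin 𝓕.N × Γ)), ({b} : Set _)) = univ by ext x; simp]
          exact h3)
      exact ⟨b, hb⟩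
    obtain ⟨ζ₁, hζ₁, hζl⟩ := (isCompact_closedBall (0 : Cm d) 1).ultrafilter_le_nhds (W.map ζ) (by
      rw [le_principal_iff]
      exact Eventually.of_forall (f := (W : Filter (Cm p)))
        fun k => mem_closedBall_zero_iff.2 (hζ k))
    have h5 := hlm a₁.1 a₁.2 ζ₁ (ball1 (mem_closedBall_zero_iff.1 hζ₁)) ζ hζl
    rw [hgz _ _ _ (ball1 (mem_closedBall_zero_iff.1 hζ₁))] at h5
    have h6 : ∀ᶠ k in (W : Filter (Cm p)), ‖f k a₁.1 a₁.2 (ζ k)‖ = 1 := by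
      filter_upwards [ha₁, hW3] with k k1 k2
      rw [← k1]
      exact (hf k k2).2.1
    have h7 : Tendsto (fun k => ‖f k a₁.1 a₁.2 (ζ k)‖) W (𝓝 1) :=
      tendsto_const_nhds.congr' (h6.mono fun k hk => hk.symm)
    have h8 := tendsto_nhds_unique h7 h5.norm
    simp at h8
  -- the normalised forms
  have hex : ∀ t : Cm p, ∃ s : Fin 𝓕.N → Γ → Cm d → ℂ, t ∈ T' →
      HForm 𝓕 t s ∧ s i₀ 1 z₀ = 1 := by
    intro t
    by_cases ht : t ∈ T'
    swap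
    · exact ⟨fun _ _ _ => 0, fun h => absurd h ht⟩
    obtain ⟨-, s, hs, hne⟩ := ht
    refine ⟨fun i δ z => (s i₀ 1 z₀)⁻¹ * s i δ z, fun _ => ⟨⟨?_, ?_⟩, inv_mul_cancel₀ hne⟩⟩
    · exact fun i δ => (hs.hol i δ).const_mul _
    · intro i j z hz γ θ k1 k2 k3 δ
      have := hs.law i j z hz γ θ k1 k2 k3 δ
      simp only
      rw [this]; ring
  choose S hS using hex
  have hsep : ∀ t ∈ T', Sep 𝓕 t i₀ 1 z₀ := fun t ht =>
    sep_of ht.1 (h t ht.1) hz₀ (hS t ht).1 (by rw [(hS t ht).2]; exact one_ne_zero)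
  have han := analytic_family hsub hTo hz₀ (fun t ht => (hS t ht).1) (fun t ht => (hS t ht).2) hsep
  refine ⟨T', fun i q => S q.1 i 1 q.2, hsub, hTo, hmem, ⟨fun i t ht z hz => han i 1 t ht z hz,
    fun t ht ht' => ?_, fun t ht => ⟨i₀, z₀, hz₀, ?_⟩⟩⟩
  · exact holD_of ht (hS t ht').1
  · show S t i₀ 1 z₀ ≠ 0
    rw [(hS t ht).2]; exact one_ne_zero

end Vale.Agent.P281.H364.S
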