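import Vale.Agent.P281.H603.K.Proper
import Vale.Agent.P281.MF.Hol
import Vale.Agent.P299.H720.Montel

/-!
# P281, project T-S, block D2 (helper364): forms of top degree on the members of a family
-/

open Set Filter Metric
open scoped Topology

noncomputable section

set_option linter.unusedSectionVars false

namespace Vale.Agent.P281.H364.S

open Vale.Agent.P281.H64.TK
open Vale.Agent.P281.H64 (Cm)
open Vale.Agent.P299.H720 (LocBdd montel_full)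
open Vale.Agent.P281.H603.K (exists_trans)

variable {p d : ℕ} {E Γ : Type} [TopologicalSpace E] [Group Γ] [MulAction Γ E]

/-- The Jacobian determinant of `θ` in the second variable. -/
def Jt (θ : Cm p × Cm d → Cm d) (q : Cm p × Cm d) : ℂ :=
  ((fderiv ℂ θ q).comp (ContinuousLinearMap.inr ℂ (Cm p) (Cm d))).det

theorem continuousAt_Jt {θ : Cm p × Cm d → Cm d} {q : Cm p × Cm d} (h : AnalyticAt ℂ θ q) :
    ContinuousAt (Jt θ) q := by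
  have h1 : ContinuousAt (fderiv ℂ θ) q := h.fderiv.continuousAt
  have h2 : ContinuousAt (fun q => (fderiv ℂ θ q).comp
      (ContinuousLinearMap.inr ℂ (Cm p) (Cm d))) q := h1.clm_comp continuousAt_const
  exact ContinuousAt.comp (g := fun L : Cm d →L[ℂ] Cm d => L.det)
    (ContinuousLinearMap.continuous_det.continuousAt) h2

/-- The coefficients `g i δ` of a form of degree `d`, in the charts `z ↦ δ • σ i t z` of the member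
number `t` of the family, satisfy the transformation rule. -/
def Law (𝓕 : Fam p d E Γ) (t : Cm p) (g : Fin 𝓕.N → Γ → Cm d → ℂ) : Prop :=
  ∀ i j, ∀ z ∈ ball (0 : Cm d) 3, ∀ (γ : Γ) (θ : Cm p × Cm d → Cm d), AnalyticAt ℂ θ (t, z) →
    θ (t, z) ∈ ball (0 : Cm d) 3 → (∀ᶠ q in 𝓝 (t, z), 𝓕.σ i q.1 q.2 = γ • 𝓕.σ j q.1 (θ q)) →
      ∀ δ, g i δ z = g j (δ * γ) (θ (t, z)) * Jt θ (t, z)

/-- A holomorphic form of degree `d` on the member number `t`. -/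
structure HForm (𝓕 : Fam p d E Γ) (t : Cm p) (g : Fin 𝓕.N → Γ → Cm d → ℂ) : Prop where
  hol : ∀ i δ, DifferentiableOn ℂ (g i δ) (ball 0 3)
  law : Law 𝓕 t g

/-- A nowhere zero holomorphic form of degree `d` on the member number `t`. -/
structure VForm (𝓕 : Fam p d E Γ) (t : Cm p) (g : Fin 𝓕.N → Γ → Cm d → ℂ) : Prop
    extends HForm 𝓕 t g where
  ne : ∀ i δ, ∀ z ∈ ball (0 : Cm d) 3, g i δ z ≠ 0

variable {𝓕 : Fam p d E Γ} {t₁ : Cm p}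

theorem ball1 {z : Cm d} (hz : ‖z‖ ≤ 1) : z ∈ ball (0 : Cm d) 3 := by
  rw [mem_ball_zero_iff]; linarith

theorem map_chart [ContinuousConstSMul Γ E] (ht : t₁ ∈ 𝓕.T) (i : Fin 𝓕.N) (δ : Γ) {z : Cm d}
    (hz : z ∈ ball (0 : Cm d) 3) :
    Filter.map (fun u => δ • 𝓕.σ i t₁ u) (𝓝 z) = 𝓝 (δ • 𝓕.σ i t₁ z) := by
  have h1 := 𝓕.map_nhds' i t₁ ht z hz
  have h2 : (fun u => δ • 𝓕.σ i t₁ u) = (fun e : E => δ • e) ∘ 𝓕.σ i t₁ := rfl
  rw [h2, ← Filter.map_map, h1]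
  exact (Homeomorph.smul δ).map_nhds_eq _

theorem compactSpace [Finite Γ] [ContinuousConstSMul Γ E] (ht : t₁ ∈ 𝓕.T) : CompactSpace E := by
  refine ⟨?_⟩
  have h1 : (univ : Set E) = ⋃ (a : Fin 𝓕.N × Γ), (fun u => a.2 • 𝓕.σ a.1 t₁ u) '' closedBall 0 1 := by
    refine (eq_univ_of_forall fun e => ?_).symm
    obtain ⟨γ, i, z, hz, he⟩ := 𝓕.cover t₁ ht e
    exact mem_iUnion.2 ⟨(i, γ), z, mem_closedBall_zero_iff.2 hz.le, he⟩
  rw [h1]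
  refine isCompact_iUnion fun a => (isCompact_closedBall _ _).image_of_continuousOn fun z hz => ?_
  have h2 := map_chart ht a.1 a.2 (ball1 (mem_closedBall_zero_iff.1 hz))
  have h3 : ContinuousAt (fun u => a.2 • 𝓕.σ a.1 t₁ u) z := h2.le
  exact h3.continuousWithinAt

/-- the ratio of two forms is constant -/
theorem ratio_const [Finite Γ] [ContinuousConstSMul Γ E] [PreconnectedSpace E] (ht : t₁ ∈ 𝓕.T)
    {s g : Fin 𝓕.N → Γ → Cm d → ℂ} (hs : VForm 𝓕 t₁ s) (hg : HForm 𝓕 t₁ g) :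
    ∃ c : ℂ, ∀ i δ, ∀ z ∈ ball (0 : Cm d) 3, g i δ z = c * s i δ z := by
  classical
  have hcpt := compactSpace (Γ := Γ) ht
  by_cases hE : Nonempty E
  swap
  · refine ⟨0, fun i δ z hz => ?_⟩
    exact absurd ⟨𝓕.σ i t₁ z⟩ hE
  have hc := 𝓕.cover t₁ ht
  choose γ₀ i₀ z₀ hz₀ he₀ using hc
  set r : E → ℂ := fun e => g (i₀ e) (γ₀ e) (z₀ e) / s (i₀ e) (γ₀ e) (z₀ e) with hr
  have key : ∀ i δ, ∀ z ∈ ball (0 : Cm d) 3, r (δ • 𝓕.σ i t₁ z) = g i δ z / s i δ z := by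
    intro i δ z hz
    set e := δ • 𝓕.σ i t₁ z with he
    have h1 : 𝓕.σ i t₁ z = (δ⁻¹ * γ₀ e) • 𝓕.σ (i₀ e) t₁ (z₀ e) := by
      rw [mul_smul, he₀ e, he, inv_smul_smul]
    obtain ⟨θ, h2, h3, h4⟩ := 𝓕.hol i (i₀ e) t₁ ht z hz (z₀ e) (ball1 (hz₀ e).le) _ h1
    have h5 : θ (t₁, z) ∈ ball (0 : Cm d) 3 := by rw [h3]; exact ball1 (hz₀ e).le
    have h6 := hs.law i (i₀ e) z hz _ θ h2 h5 h4 δ
    have h7 := hg.law i (i₀ e) z hz _ θ h2 h5 h4 δ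
    rw [h3, mul_inv_cancel_left] at h6 h7
    have h8 := hs.ne i δ z hz
    have h9 : Jt θ (t₁, z) ≠ 0 := by
      intro h
      rw [h, mul_zero] at h6
      exact h8 h6
    show g (i₀ e) (γ₀ e) (z₀ e) / s (i₀ e) (γ₀ e) (z₀ e) = _
    rw [h6, h7, mul_div_mul_right _ _ h9]
  have hda : ∀ i δ, ∀ z ∈ ball (0 : Cm d) 3, DifferentiableAt ℂ (fun u => g i δ u / s i δ u) z := by
    intro i δ z hz
    simp only [div_eq_mul_inv]
    exact ((hg.hol i δ).differentiableAt (isOpen_ball.mem_nhds hz)).mul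
      (((hs.hol i δ).differentiableAt (isOpen_ball.mem_nhds hz)).fun_inv (hs.ne i δ z hz))
  have hloc : ∀ i δ, ∀ z ∈ ball (0 : Cm d) 3, (fun u => r (δ • 𝓕.σ i t₁ u)) =ᶠ[𝓝 z]
      fun u => g i δ u / s i δ u := by
    intro i δ z hz
    filter_upwards [isOpen_ball.mem_nhds hz] with u hu using key i δ u hu
  have hrc : Continuous r := by
    refine continuous_iff_continuousAt.2 fun e => ?_
    have h1 := map_chart ht (i₀ e) (γ₀ e) (ball1 (hz₀ e).le)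
    rw [he₀ e] at h1
    show Tendsto r (𝓝 e) (𝓝 (r e))
    rw [← h1, tendsto_map'_iff]
    have h2 := (hda (i₀ e) (γ₀ e) _ (ball1 (hz₀ e).le)).continuousAt
    exact h2.tendsto.congr' (hloc (i₀ e) (γ₀ e) _ (ball1 (hz₀ e).le)).symm
  obtain ⟨e₁, -, hmax⟩ := isCompact_univ.exists_isMaxOn (univ_nonempty) hrc.norm.continuousOn
  set A : Set E := {e | r e = r e₁} with hA
  have hAc : IsClosed A := isClosed_eq hrc continuous_const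
  have hAo : IsOpen A := by
    refine isOpen_iff_mem_nhds.2 fun e he => ?_
    have h1 := map_chart ht (i₀ e) (γ₀ e) (ball1 (hz₀ e).le)
    rw [he₀ e] at h1
    rw [← h1]
    show ∀ᶠ u in 𝓝 (z₀ e), r (γ₀ e • 𝓕.σ (i₀ e) t₁ u) = r e₁
    have h2 : ∀ᶠ u in 𝓝 (z₀ e), DifferentiableAt ℂ (fun u => r (γ₀ e • 𝓕.σ (i₀ e) t₁ u)) u := by
      filter_upwards [isOpen_ball.mem_nhds (ball1 (hz₀ e).le)] with u hu
      exact (hda (i₀ e) (γ₀ e) u hu).congr_of_eventuallyEq (hloc (i₀ e) (γ₀ e) u hu)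
    have h3 : IsLocalMax (norm ∘ fun u => r (γ₀ e • 𝓕.σ (i₀ e) t₁ u)) (z₀ e) := by
      refine Eventually.of_forall fun u => ?_
      show ‖r _‖ ≤ ‖r _‖
      rw [he₀ e, show r e = r e₁ from he]
      exact hmax (mem_univ _)
    have h4 := Complex.eventually_eq_of_isLocalMax_norm h2 h3
    filter_upwards [h4] with u hu
    rw [hu]
    show r (γ₀ e • 𝓕.σ (i₀ e) t₁ (z₀ e)) = r e₁
    rw [he₀ e]
    exact he
  have hAu : A = univ := IsClopen.eq_univ ⟨hAc, hAo⟩ ⟨e₁, rfl⟩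
  refine ⟨r e₁, fun i δ z hz => ?_⟩
  have h1 : δ • 𝓕.σ i t₁ z ∈ A := by rw [hAu]; trivial
  have h2 : r (δ • 𝓕.σ i t₁ z) = r e₁ := h1
  rw [key i δ z hz] at h2
  rw [← h2, div_mul_cancel₀ _ (hs.ne i δ z hz)]

theorem eq_zero_of [Finite Γ] [ContinuousConstSMul Γ E] [PreconnectedSpace E] (ht : t₁ ∈ 𝓕.T)
    {s g : Fin 𝓕.N → Γ → Cm d → ℂ} (hs : VForm 𝓕 t₁ s) (hg : HForm 𝓕 t₁ g) {i₀ : Fin 𝓕.N}
    {δ₀ : Γ} {z₀ : Cm d} (hz₀ : z₀ ∈ ball (0 : Cm d) 3) (h0 : g i₀ δ₀ z₀ = 0) :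
    ∀ i δ, ∀ z ∈ ball (0 : Cm d) 3, g i δ z = 0 := by
  obtain ⟨c, hc⟩ := ratio_const ht hs hg
  have h1 := hc i₀ δ₀ z₀ hz₀
  rw [h0, zero_eq_mul] at h1
  have h2 : c = 0 := h1.resolve_right (hs.ne _ _ _ hz₀)
  intro i δ z hz
  rw [hc i δ z hz, h2, zero_mul]

/-- the defects of the transformation rule converge -/
structure Sq {ι : Type*} (𝓕 : Fam p d E Γ) (l : Filter ι) (τ : ι → Cm p) (t₁ : Cm p)
    (f : ι → Fin 𝓕.N → Γ → Cm d → ℂ) : Prop where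
  lim : Tendsto τ l (𝓝 t₁)
  hol : ∀ᶠ n in l, ∀ i δ, DifferentiableOn ℂ (f n i δ) (ball 0 3)
  law : ∀ i j, ∀ z ∈ ball (0 : Cm d) 3, ∀ (γ : Γ) (θ : Cm p × Cm d → Cm d),
    AnalyticAt ℂ θ (t₁, z) → θ (t₁, z) ∈ ball (0 : Cm d) 3 →
    (∀ᶠ q in 𝓝 (t₁, z), 𝓕.σ i q.1 q.2 = γ • 𝓕.σ j q.1 (θ q)) → ∀ δ, ∃ B : ℂ,
      Tendsto (fun q : ι × Cm d => f q.1 i δ q.2 -
        f q.1 j (δ * γ) (θ (τ q.1, q.2)) * Jt θ (τ q.1, q.2)) (l ×ˢ 𝓝 z) (𝓝 B)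

theorem Sq.comp {ι κ : Type*} {l : Filter ι} {τ : ι → Cm p} {f : ι → Fin 𝓕.N → Γ → Cm d → ℂ}
    (h : Sq 𝓕 l τ t₁ f) {W : Filter κ} {φ : κ → ι} (hφ : Tendsto φ W l) :
    Sq 𝓕 W (τ ∘ φ) t₁ (fun k => f (φ k)) where
  lim := h.lim.comp hφ
  hol := hφ.eventually h.hol
  law i j z hz γ θ h1 h2 h3 δ := by
    obtain ⟨B, hB⟩ := h.law i j z hz γ θ h1 h2 h3 δ
    exact ⟨B, hB.comp (hφ.prodMap tendsto_id)⟩

theorem Sq.smul {ι : Type*} {l : Filter ι} {τ : ι → Cm p} {f : ι → Fin 𝓕.N → Γ → Cm d → ℂ}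
    (h : Sq 𝓕 l τ t₁ f) {c : ι → ℂ} {c₀ : ℂ} (hc : Tendsto c l (𝓝 c₀)) :
    Sq 𝓕 l τ t₁ (fun n i δ z => c n * f n i δ z) where
  lim := h.lim
  hol := by
    filter_upwards [h.hol] with n hn i δ using (hn i δ).const_mul _
  law i j z hz γ θ h1 h2 h3 δ := by
    obtain ⟨B, hB⟩ := h.law i j z hz γ θ h1 h2 h3 δ
    refine ⟨c₀ * B, ((hc.comp tendsto_fst).mul hB).congr fun q => ?_⟩
    simp only [Function.comp_apply]
    ring

/-- the values in the unit balls control the values in the balls of radius `3` -/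
theorem Sq.locBdd {κ : Type*} {W : Filter κ} {τ : κ → Cm p} {f : κ → Fin 𝓕.N → Γ → Cm d → ℂ}
    (ht : t₁ ∈ 𝓕.T) (h : Sq 𝓕 W τ t₁ f) {C : ℝ}
    (hC : ∀ᶠ k in W, ∀ i δ, ∀ z : Cm d, ‖z‖ ≤ 1 → ‖f k i δ z‖ ≤ C) (i : Fin 𝓕.N) (δ : Γ) :
    LocBdd W (fun k => f k i δ) (ball 0 3) := by
  intro x hx
  obtain ⟨γ, j, w, hw, hγ⟩ := 𝓕.cover t₁ ht (𝓕.σ i t₁ x)
  obtain ⟨θ, h1, h2, h3⟩ := 𝓕.hol i j t₁ ht x hx w (ball1 hw.le) γ hγ.symm
  have h4 : θ (t₁, x) ∈ ball (0 : Cm d) 3 := by rw [h2]; exact ball1 hw.le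
  obtain ⟨B, hB⟩ := h.law i j x hx γ θ h1 h4 h3 δ
  have h5 : Tendsto (fun q : κ × Cm d => (τ q.1, q.2)) (W ×ˢ 𝓝 x) (𝓝 (t₁, x)) := by
    rw [nhds_prod_eq]
    exact (h.lim.comp tendsto_fst).prodMk tendsto_snd
  have h6 : ∀ᶠ q in 𝓝 (t₁, x), ‖θ q‖ ≤ 1 := by
    have : ContinuousAt (fun q => ‖θ q‖) (t₁, x) := h1.continuousAt.norm
    have h7 : ‖θ (t₁, x)‖ < 1 := by rw [h2]; exact hw
    filter_upwards [this.eventually (gt_mem_nhds h7)] with q hq using le_of_lt hq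
  have h8 : ∀ᶠ q in 𝓝 (t₁, x), ‖Jt θ q‖ ≤ ‖Jt θ (t₁, x)‖ + 1 := by
    have : ContinuousAt (fun q => ‖Jt θ q‖) (t₁, x) := (continuousAt_Jt h1).norm
    filter_upwards [this.eventually (gt_mem_nhds (lt_add_one _))] with q hq using le_of_lt hq
  have h9 : ∀ᶠ q in W ×ˢ 𝓝 x, ‖f q.1 i δ q.2 -
      f q.1 j (δ * γ) (θ (τ q.1, q.2)) * Jt θ (τ q.1, q.2)‖ ≤ ‖B‖ + 1 := by
    filter_upwards [hB.norm.eventually (gt_mem_nhds (lt_add_one _))] with q hq using le_of_lt hq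
  set K : ℝ := ‖B‖ + 1 + |C| * (‖Jt θ (t₁, x)‖ + 1) with hK
  have h10 : ∀ᶠ q in W ×ˢ 𝓝 x, ‖f q.1 i δ q.2‖ ≤ K := by
    filter_upwards [h9, h5.eventually h6, h5.eventually h8, tendsto_fst.eventually hC]
      with q k1 k2 k3 k4
    have k5 := k4 j (δ * γ) _ k2
    have k6 : ‖f q.1 j (δ * γ) (θ (τ q.1, q.2)) * Jt θ (τ q.1, q.2)‖ ≤
        |C| * (‖Jt θ (t₁, x)‖ + 1) := by
      rw [norm_mul]
      exact mul_le_mul (k5.trans (le_abs_self C)) k3 (norm_nonneg _) (abs_nonneg _)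
    have k7 : f q.1 i δ q.2 = (f q.1 i δ q.2 -
      f q.1 j (δ * γ) (θ (τ q.1, q.2)) * Jt θ (τ q.1, q.2)) +
      f q.1 j (δ * γ) (θ (τ q.1, q.2)) * Jt θ (τ q.1, q.2) := by ring
    rw [k7]
    exact (norm_add_le _ _).trans (add_le_add k1 k6)
  obtain ⟨pa, hpa, pb, hpb, hab⟩ := Filter.eventually_prod_iff.1 h10
  obtain ⟨r, hr, hrb⟩ := Metric.eventually_nhds_iff_ball.1 (hpb.and (isOpen_ball.mem_nhds hx))
  refine ⟨r, hr, K, ?_⟩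
  filter_upwards [hpa, h.hol] with k k1 k2
  exact ⟨(k2 i δ).mono fun y hy => (hrb y hy).2, fun y hy => hab k1 (hrb y hy).1⟩

end Vale.Agent.P281.H364.S
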