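import Vale.Agent.P281.H364.S.SqConv
import Vale.Agent.P281.H603.K.Dep2

/-!
# P281, project T-S, block D2 (helper364): the relative form of top degree
-/

open Set Filter Metric
open scoped Topology

noncomputable section

set_option linter.unusedSectionVars false

namespace Vale.Agent.P281.H364.S

open Vale.Agent.P281.H64.TK
open Vale.Agent.P281.H64 (Cm)
open Vale.Agent.P299.H720 (LocBdd montel_full)

variable {p d : ℕ} {E Γ : Type} [TopologicalSpace E] [Group Γ] [MulAction Γ E]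
variable {𝓕 : Fam p d E Γ} {t₁ : Cm p}

section Hurwitz

/-- Hurwitz' theorem along a filter, in several variables: a limit of nowhere zero holomorphic
functions which vanishes at a point vanishes near this point. -/
theorem hurwitz {V : Type*} [NormedAddCommGroup V] [NormedSpace ℂ V] [LocallyCompactSpace V]
    {κ : Type*} {W : Filter κ} [W.NeBot] {f : κ → V → ℂ} {g : V → ℂ} {x : V} {r : ℝ}
    (hf : ∀ᶠ k in W, DifferentiableOn ℂ (f k) (ball x r) ∧ ∀ y ∈ ball x r, f k y ≠ 0)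
    (hg : DifferentiableOn ℂ g (ball x r))
    (hl : TendstoLocallyUniformlyOn f g W (ball x r)) (h0 : g x = 0) :
    ∀ y ∈ ball x r, g y = 0 := by
  intro w hw
  by_contra hne
  have hxw : w ≠ x := fun h => hne (by rw [h, h0])
  have hd : 0 < dist w x := dist_pos.2 hxw
  -- the line
  set q : ℂ → V := fun ζ => x + ζ • (w - x) with hq
  have hqc : Continuous q := by fun_prop
  have hqd : Differentiable ℂ q := by fun_prop
  set R : ℝ := r / dist w x with hR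
  have hR1 : 1 < R := by rw [hR, lt_div_iff₀ hd, one_mul]; exact hw
  have hqb : ∀ ζ ∈ ball (0 : ℂ) R, q ζ ∈ ball x r := by
    intro ζ hζ
    rw [mem_ball_zero_iff, hR, lt_div_iff₀ hd] at hζ
    rw [mem_ball, dist_eq_norm]
    simp only [hq, add_sub_cancel_left, norm_smul]
    rwa [dist_eq_norm] at hζ
  have hgd : DifferentiableOn ℂ (fun ζ => g (q ζ)) (ball 0 R) := fun ζ hζ =>
    ((hg.differentiableAt (isOpen_ball.mem_nhds (hqb ζ hζ))).comp ζ
      (hqd ζ)).differentiableWithinAt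
  have hga : AnalyticOnNhd ℂ (fun ζ => g (q ζ)) (ball 0 R) := hgd.analyticOnNhd isOpen_ball
  have hg0 : g (q 0) = 0 := by simp [hq, h0]
  have hg1 : g (q 1) ≠ 0 := by simpa [hq] using hne
  have h0R : (0 : ℂ) ∈ ball (0 : ℂ) R := mem_ball_self (by linarith)
  have h1R : (1 : ℂ) ∈ ball (0 : ℂ) R := by simpa using hR1
  have hiso : ∀ᶠ ζ in 𝓝[≠] (0 : ℂ), g (q ζ) ≠ 0 := by
    rcases (hga 0 h0R).eventually_eq_zero_or_eventually_ne_zero with h | h
    · exfalso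
      have h2 := hga.eqOn_zero_of_preconnected_of_eventuallyEq_zero
        (convex_ball (0 : ℂ) R).isPreconnected h0R h
      exact hg1 (h2 h1R)
    · exact h
  rw [eventually_nhdsWithin_iff] at hiso
  obtain ⟨ρ₀, hρ₀, hb⟩ := Metric.eventually_nhds_iff_ball.1 hiso
  set ρ : ℝ := min ρ₀ 1 / 2 with hρ
  have hm0 : 0 < min ρ₀ 1 := by positivity
  have hρ0 : 0 < ρ := by positivity
  have hρ1 : ρ < ρ₀ := by have := min_le_left ρ₀ 1; rw [hρ]; linarith
  have hρR : ρ < R := by have := min_le_right ρ₀ 1; rw [hρ]; linarith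
  have hcb : closedBall (0 : ℂ) ρ ⊆ ball 0 R := closedBall_subset_ball hρR
  have hsp : IsCompact (sphere (0 : ℂ) ρ) := isCompact_sphere _ _
  have hcont : ContinuousOn (fun ζ => ‖g (q ζ)‖) (sphere (0 : ℂ) ρ) :=
    (hgd.continuousOn.mono (sphere_subset_closedBall.trans hcb)).norm
  obtain ⟨ζ₁, hζ₁, hmin⟩ := hsp.exists_isMinOn (NormedSpace.sphere_nonempty.2 hρ0.le) hcont
  set m : ℝ := ‖g (q ζ₁)‖ with hm
  have hmpos : 0 < m := by
    rw [hm, norm_pos_iff]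
    refine hb ζ₁ (sphere_subset_closedBall.trans (closedBall_subset_ball hρ1) hζ₁) ?_
    intro h
    rw [mem_singleton_iff.1 h] at hζ₁
    simp at hζ₁
    linarith
  -- uniform convergence on the image of the closed disc
  have hK : IsCompact (q '' closedBall (0 : ℂ) ρ) := (isCompact_closedBall _ _).image hqc
  have hKs : q '' closedBall (0 : ℂ) ρ ⊆ ball x r := by
    rintro _ ⟨ζ, hζ, rfl⟩
    exact hqb ζ (hcb hζ)
  have hun := (tendstoLocallyUniformlyOn_iff_forall_isCompact isOpen_ball).1 hl _ hKs hK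
  have h2 := Metric.tendstoUniformlyOn_iff.1 hun (m / 2) (by positivity)
  obtain ⟨k, hk1, hk2, hk3⟩ := (h2.and hf).exists
  -- minimum principle
  set F : ℂ → ℂ := fun ζ => (f k (q ζ))⁻¹ with hF
  have hFd : DiffContOnCl ℂ F (ball 0 ρ) := by
    refine DifferentiableOn.diffContOnCl (fun ζ hζ => ?_)
    rw [closure_ball _ hρ0.ne'] at hζ
    have h3 := hqb ζ (hcb hζ)
    refine DifferentiableAt.differentiableWithinAt ?_
    exact DifferentiableAt.fun_inv (((hk2.differentiableAt (isOpen_ball.mem_nhds h3)).comp ζ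
      (hqd ζ))) (hk3 _ h3)
  have hbd : ∀ ζ ∈ frontier (ball (0 : ℂ) ρ), ‖F ζ‖ ≤ 2 / m := by
    intro ζ hζ
    rw [frontier_ball _ hρ0.ne'] at hζ
    have h3 := hk1 (q ζ) (mem_image_of_mem _ (sphere_subset_closedBall hζ))
    have h4 : m ≤ ‖g (q ζ)‖ := hmin hζ
    rw [dist_eq_norm] at h3
    have h5 : m / 2 ≤ ‖f k (q ζ)‖ := by
      have := norm_sub_norm_le (g (q ζ)) (f k (q ζ))
      linarith
    rw [hF]
    simp only [norm_inv]
    rw [inv_le_comm₀ (by linarith) (by positivity)]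
    calc (2 / m)⁻¹ = m / 2 := by rw [inv_div]
      _ ≤ _ := h5
  have h3 := Complex.norm_le_of_forall_mem_frontier_norm_le isBounded_ball hFd hbd
    (subset_closure (mem_ball_self hρ0))
  have h4 := hk1 (q 0) (mem_image_of_mem _ (mem_closedBall_self hρ0.le))
  rw [hg0, dist_eq_norm, zero_sub, norm_neg] at h4
  have h5 : 0 < ‖f k (q 0)‖ := norm_pos_iff.2 (hk3 _ (hqb 0 h0R))
  rw [hF] at h3
  simp only [norm_inv] at h3
  rw [inv_le_comm₀ h5 (by positivity), inv_div] at h3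
  linarith

end Hurwitz

theorem Jt_eq (θ : Cm p × Cm d → Cm d) (q : Cm p × Cm d) :
    Jt θ q = Matrix.det (Matrix.of fun a b : Fin d => fderiv ℂ θ q (0, Pi.single b 1) a) := by
  unfold Jt
  rw [ContinuousLinearMap.det, ← LinearMap.det_toMatrix (Pi.basisFun ℂ (Fin d))]
  congr 1

theorem analyticAt_Jt {θ : Cm p × Cm d → Cm d} {q : Cm p × Cm d} (h : AnalyticAt ℂ θ q) :
    AnalyticAt ℂ (Jt θ) q := by
  have e2 : (Jt θ) = fun q => Matrix.det (Matrix.of fun a b : Fin d =>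
      fderiv ℂ θ q (0, Pi.single b 1) a) := funext fun q => Jt_eq θ q
  rw [e2]
  simp only [Matrix.det_apply']
  refine Finset.analyticAt_fun_sum _ fun σ _ => ?_
  refine analyticAt_const.mul ?_
  refine Finset.analyticAt_fun_prod _ fun k _ => ?_
  have e3 : AnalyticAt ℂ (fun L : (Cm p × Cm d) →L[ℂ] Cm d => L (0, Pi.single k 1) (σ k))
      (fderiv ℂ θ q) :=
    ((ContinuousLinearMap.proj (R := ℂ) (φ := fun _ : Fin d => ℂ) (σ k)).comp
      (ContinuousLinearMap.apply ℂ (Cm d) ((0 : Cm p), (Pi.single k (1 : ℂ) : Cm d)))).analyticAt _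
  exact e3.comp h.fderiv

/-- **Limits**: if the members number `t ∈ D` have nowhere zero forms, so has every member number
`t ∈ closure D`. -/
theorem exists_vform [Finite Γ] [ContinuousConstSMul Γ E] [ConnectedSpace E]
    {D : Set (Cm p)} (h : ∀ t ∈ D, ∃ s, VForm 𝓕 t s) (ht : t₁ ∈ 𝓕.T)
    (hc : t₁ ∈ closure D) : ∃ s, VForm 𝓕 t₁ s := by
  classical
  obtain ⟨e₁⟩ : Nonempty E := inferInstance
  obtain ⟨-, i₁, -⟩ := 𝓕.cover t₁ ht e₁
  have hN : Nonempty (Fin 𝓕.N) := ⟨i₁⟩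
  have : (𝓝[D] t₁).NeBot := mem_closure_iff_nhdsWithin_neBot.1 hc
  set W : Ultrafilter (Cm p) := Ultrafilter.of (𝓝[D] t₁) with hW
  have hWD : (W : Filter (Cm p)) ≤ 𝓝[D] t₁ := Ultrafilter.of_le _
  have hD' : ∀ᶠ t in (W : Filter (Cm p)), t ∈ D := hWD self_mem_nhdsWithin
  -- normalised forms
  have hex : ∀ t : Cm p, ∃ (s : Fin 𝓕.N → Γ → Cm d → ℂ) (a : Fin 𝓕.N × Γ) (ζ : Cm d), ‖ζ‖ ≤ 1 ∧
      (t ∈ D → VForm 𝓕 t s ∧ ‖s a.1 a.2 ζ‖ = 1 ∧ ∀ i δ, ∀ z : Cm d, ‖z‖ ≤ 1 → ‖s i δ z‖ ≤ 1) := by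
    intro t
    by_cases htD : t ∈ D
    swap
    · exact ⟨fun _ _ _ => 0, (i₁, 1), 0, by simp, fun h => absurd h htD⟩
    obtain ⟨s, hs⟩ := h t htD
    obtain ⟨a, ζ, hζ, hm⟩ := exists_max hs.hol
    have hpos : 0 < ‖s a.1 a.2 ζ‖ := norm_pos_iff.2 (hs.ne _ _ _ (ball1 hζ))
    refine ⟨fun i δ z => ((‖s a.1 a.2 ζ‖ : ℝ) : ℂ)⁻¹ * s i δ z, a, ζ, hζ, fun _ => ⟨⟨⟨?_, ?_⟩, ?_⟩,
      ?_, ?_⟩⟩
    · exact fun i δ => (hs.hol i δ).const_mul _
    · intro i j z hz γ θ k1 k2 k3 δ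
      have := hs.law i j z hz γ θ k1 k2 k3 δ
      simp only
      rw [this]; ring
    · intro i δ z hz
      exact mul_ne_zero (inv_ne_zero (by exact_mod_cast hpos.ne')) (hs.ne i δ z hz)
    · simp only [norm_mul, norm_inv, Complex.norm_real, Real.norm_eq_abs, abs_of_pos hpos]
      exact inv_mul_cancel₀ hpos.ne'
    · intro i δ z hz
      simp only [norm_mul, norm_inv, Complex.norm_real, Real.norm_eq_abs, abs_of_pos hpos]
      rw [inv_mul_le_one₀ hpos]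
      exact hm i δ z hz
  choose f a ζ hζ hf using hex
  have hsq : Sq 𝓕 (W : Filter (Cm p)) id t₁ f := by
    refine ⟨hWD.trans nhdsWithin_le_nhds, ?_, fun i j z hz γ θ k1 k2 k3 δ => ⟨0, ?_⟩⟩
    · filter_upwards [hD'] with t ht' i δ using (hf t ht').1.hol i δ
    · have k4 : Tendsto (fun q : Cm p × Cm d => q) ((W : Filter (Cm p)) ×ˢ 𝓝 z) (𝓝 (t₁, z)) := by
        rw [nhds_prod_eq]
        exact Filter.prod_mono (hWD.trans nhdsWithin_le_nhds) le_rfl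
      refine tendsto_const_nhds.congr' ?_
      filter_upwards [k4.eventually k1.eventually_analyticAt,
        k4.eventually (k1.continuousAt.eventually (isOpen_ball.mem_nhds k2)),
        k4.eventually k3.eventually_nhds, tendsto_fst.eventually hD',
        tendsto_snd.eventually (isOpen_ball.mem_nhds hz)] with q m1 m2 m3 m4 m5
      have := (hf q.1 m4).1.law i j q.2 m5 γ θ m1 m2 m3 δ
      simp only [id_eq]
      rw [this]; simp
  have hb : ∀ᶠ t in (W : Filter (Cm p)), ∀ i δ, ∀ z : Cm d, ‖z‖ ≤ 1 → ‖f t i δ z‖ ≤ 1 := by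
    filter_upwards [hD'] with t ht' using (hf t ht').2.2
  have hloc := fun i δ => hsq.locBdd ht hb i δ
  choose g hg1 hg2 hg3 using fun i δ => montel_full W isOpen_ball (hloc i δ)
  have hlm : Lm 𝓕 (W : Filter (Cm p)) f g := fun i δ x hx u hu => hg3 i δ x hx u hu
  have hgF : HForm 𝓕 t₁ g := by
    refine ⟨hg1, fun i j z hz γ θ k1 k2 k3 δ => ?_⟩
    have k4 : Tendsto (fun q : Cm p × Cm d => q) ((W : Filter (Cm p)) ×ˢ 𝓝 z) (𝓝 (t₁, z)) := by
      rw [nhds_prod_eq]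
      exact Filter.prod_mono (hWD.trans nhdsWithin_le_nhds) le_rfl
    refine sub_eq_zero.1 (hlm.defect (B := 0) hsq.lim hz k1 k2 ?_)
    refine tendsto_const_nhds.congr' ?_
    filter_upwards [k4.eventually k1.eventually_analyticAt,
      k4.eventually (k1.continuousAt.eventually (isOpen_ball.mem_nhds k2)),
      k4.eventually k3.eventually_nhds, tendsto_fst.eventually hD',
      tendsto_snd.eventually (isOpen_ball.mem_nhds hz)] with q m1 m2 m3 m4 m5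
    have := (hf q.1 m4).1.law i j q.2 m5 γ θ m1 m2 m3 δ
    simp only [id_eq]
    rw [this]; simp
  -- zeros are inner points of the zero set
  have hz : ∀ i δ, ∀ x ∈ ball (0 : Cm d) 3, g i δ x = 0 → ∀ᶠ y in 𝓝 x, g i δ y = 0 := by
    intro i δ x hx h0
    obtain ⟨r, hr, hrb⟩ := Metric.isOpen_iff.1 isOpen_ball x hx
    have h1 : ∀ᶠ t in (W : Filter (Cm p)), DifferentiableOn ℂ (f t i δ) (ball x r) ∧
        ∀ y ∈ ball x r, f t i δ y ≠ 0 := by
      filter_upwards [hD'] with t ht'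
      exact ⟨((hf t ht').1.hol i δ).mono hrb, fun y hy => (hf t ht').1.ne i δ y (hrb hy)⟩
    have h2 := hurwitz h1 ((hg1 i δ).mono hrb) ((hg2 i δ).mono hrb) h0
    filter_upwards [isOpen_ball.mem_nhds (mem_ball_self hr)] with y hy using h2 y hy
  refine ⟨g, ⟨hgF, ?_⟩⟩
  -- the zero set is open and closed
  have hkey : ∀ i j, ∀ x ∈ ball (0 : Cm d) 3, ∀ y ∈ ball (0 : Cm d) 3, ∀ δ ε : Γ,
      δ • 𝓕.σ i t₁ x = ε • 𝓕.σ j t₁ y → g j ε y = 0 → g i δ x = 0 := by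
    intro i j x hx y hy δ ε he h0
    have h1 : 𝓕.σ i t₁ x = (δ⁻¹ * ε) • 𝓕.σ j t₁ y := by
      rw [mul_smul, ← he, inv_smul_smul]
    obtain ⟨θ, h2, h3, h4⟩ := 𝓕.hol i j t₁ ht x hx y hy _ h1
    have h5 := hgF.law i j x hx _ θ h2 (by rw [h3]; exact hy) h4 δ
    rw [h3, mul_inv_cancel_left, h0, zero_mul] at h5
    exact h5
  set Z : Set E := {e | ∃ i δ, ∃ x ∈ ball (0 : Cm d) 3, δ • 𝓕.σ i t₁ x = e ∧ g i δ x = 0} with hZ
  have hZo : IsOpen Z := by
    refine isOpen_iff_mem_nhds.2 ?_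
    rintro e ⟨i, δ, x, hx, rfl, h0⟩
    rw [← map_chart ht i δ hx]
    show ∀ᶠ y in 𝓝 x, δ • 𝓕.σ i t₁ y ∈ Z
    filter_upwards [hz i δ x hx h0, isOpen_ball.mem_nhds hx] with y h1 h2
    exact ⟨i, δ, y, h2, rfl, h1⟩
  have hZc : IsClosed Z := by
    refine isOpen_compl_iff.1 (isOpen_iff_mem_nhds.2 fun e he => ?_)
    obtain ⟨δ, i, x, hx, rfl⟩ := 𝓕.cover t₁ ht e
    rw [← map_chart ht i δ (ball1 hx.le)]
    show ∀ᶠ y in 𝓝 x, δ • 𝓕.σ i t₁ y ∉ Z
    have h0 : g i δ x ≠ 0 := fun h0 => he ⟨i, δ, x, ball1 hx.le, rfl, h0⟩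
    have hcont : ContinuousAt (g i δ) x :=
      ((hg1 i δ).differentiableAt (isOpen_ball.mem_nhds (ball1 hx.le))).continuousAt
    filter_upwards [hcont.eventually_ne h0, isOpen_ball.mem_nhds (ball1 hx.le)] with y h1 h2
    rintro ⟨j, ε, w, hw, h3, h4⟩
    exact h1 (hkey i j y h2 w hw δ ε h3.symm h4)
  intro i δ x hx h0
  have hZu : Z = univ := IsClopen.eq_univ ⟨hZc, hZo⟩ ⟨_, i, δ, x, hx, rfl, h0⟩
  have hall : ∀ i δ, ∀ y ∈ ball (0 : Cm d) 3, g i δ y = 0 := by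
    intro i δ y hy
    have h1 : δ • 𝓕.σ i t₁ y ∈ Z := by rw [hZu]; trivial
    obtain ⟨j, ε, w, hw, h3, h4⟩ := h1
    exact hkey i j y hy w hw δ ε h3.symm h4
  -- contradiction with the normalisation
  obtain ⟨a₁, ha₁⟩ : ∃ a₁, ∀ᶠ k in (W : Filter (Cm p)), a k = a₁ := by
    have h3 : (univ : Set (Fin 𝓕.N × Γ)) ∈ W.map a := univ_mem
    obtain ⟨b, -, hb⟩ := (Ultrafilter.finite_biUnion_mem_iff (f := W.map a)
      (s := fun b : Fin 𝓕.N × Γ => ({b} : Set _)) (Set.finite_univ)).1 (by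
        rw [show (⋃ b ∈ (univ : Set (Fin 𝓕.N × Γ)), ({b} : Set _)) = univ by ext x; simp]
        exact h3)
    exact ⟨b, hb⟩
  obtain ⟨ζ₁, hζ₁, hζl⟩ := (isCompact_closedBall (0 : Cm d) 1).ultrafilter_le_nhds (W.map ζ) (by
    rw [le_principal_iff]
    exact Eventually.of_forall (f := (W : Filter (Cm p)))
      fun k => mem_closedBall_zero_iff.2 (hζ k))
  have h5 := hlm a₁.1 a₁.2 ζ₁ (ball1 (mem_closedBall_zero_iff.1 hζ₁)) ζ hζl
  rw [hall _ _ _ (ball1 (mem_closedBall_zero_iff.1 hζ₁))] at h5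
  have h6 : ∀ᶠ k in (W : Filter (Cm p)), ‖f k a₁.1 a₁.2 (ζ k)‖ = 1 := by
    filter_upwards [ha₁, hD'] with k k1 k2
    rw [← k1]
    exact (hf k k2).2.1
  have h7 : Tendsto (fun k => ‖f k a₁.1 a₁.2 (ζ k)‖) W (𝓝 1) :=
    tendsto_const_nhds.congr' (h6.mono fun k hk => hk.symm)
  have h8 := tendsto_nhds_unique h7 h5.norm
  simp at h8

/-- **The relative form**, normalised at one point. -/
theorem relForm [Finite Γ] [ContinuousConstSMul Γ E] [ConnectedSpace E]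
    {D : Set (Cm p)} (hdense : 𝓕.T ⊆ closure D) (h : ∀ t ∈ D, ∃ s, VForm 𝓕 t s) :
    ∃ s : Fin 𝓕.N → Γ → Cm p × Cm d → ℂ, (∀ t ∈ 𝓕.T, VForm 𝓕 t (fun i δ z => s i δ (t, z))) ∧
      ∀ i δ, ∀ t ∈ 𝓕.T, ∀ z ∈ ball (0 : Cm d) 3, AnalyticAt ℂ (s i δ) (t, z) := by
  classical
  by_cases hT : 𝓕.T.Nonempty
  swap
  · rw [Set.not_nonempty_iff_eq_empty] at hT
    refine ⟨fun _ _ _ => 0, fun t ht => ?_, fun i δ t ht => ?_⟩
    · rw [hT] at ht; exact absurd ht (notMem_empty _)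
    · rw [hT] at ht; exact absurd ht (notMem_empty _)
  obtain ⟨t₀, ht₀⟩ := hT
  obtain ⟨e₁⟩ : Nonempty E := inferInstance
  obtain ⟨-, i₀, -⟩ := 𝓕.cover t₀ ht₀ e₁
  have hz₀ : (0 : Cm d) ∈ ball (0 : Cm d) 3 := mem_ball_self (by norm_num)
  -- the normalised form
  have hex : ∀ t : Cm p, ∃ s : Fin 𝓕.N → Γ → Cm d → ℂ, t ∈ 𝓕.T →
      VForm 𝓕 t s ∧ s i₀ 1 0 = 1 := by
    intro t
    by_cases ht : t ∈ 𝓕.T
    swap
    · exact ⟨fun _ _ _ => 0, fun h => absurd h ht⟩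
    obtain ⟨s, hs⟩ := exists_vform h ht (hdense ht)
    have h0 := hs.ne i₀ 1 0 hz₀
    refine ⟨fun i δ z => (s i₀ 1 0)⁻¹ * s i δ z, fun _ => ⟨⟨⟨?_, ?_⟩, ?_⟩, inv_mul_cancel₀ h0⟩⟩
    · exact fun i δ => (hs.hol i δ).const_mul _
    · intro i j z hz γ θ k1 k2 k3 δ
      have := hs.law i j z hz γ θ k1 k2 k3 δ
      simp only
      rw [this]; ring
    · intro i δ z hz
      exact mul_ne_zero (inv_ne_zero h0) (hs.ne i δ z hz)
  choose S hS using hex
  have hV : ∀ t ∈ 𝓕.T, VForm 𝓕 t (S t) := fun t ht => (hS t ht).1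
  -- the rule near a point
  have hrule : ∀ t₁ ∈ 𝓕.T, ∀ i j, ∀ z ∈ ball (0 : Cm d) 3, ∀ (γ : Γ) (θ : Cm p × Cm d → Cm d),
      AnalyticAt ℂ θ (t₁, z) → θ (t₁, z) ∈ ball (0 : Cm d) 3 →
      (∀ᶠ q in 𝓝 (t₁, z), 𝓕.σ i q.1 q.2 = γ • 𝓕.σ j q.1 (θ q)) → ∀ δ, ∀ᶠ q in 𝓝 (t₁, z),
        S q.1 i δ q.2 = S q.1 j (δ * γ) (θ q) * Jt θ q := by
    intro t₁ ht₁ i j z hz γ θ k1 k2 k3 δ
    have m4 : ∀ᶠ q : Cm p × Cm d in 𝓝 (t₁, z), q.1 ∈ 𝓕.T :=
      (continuous_fst.tendsto (t₁, z)).eventually (𝓕.isOpen.mem_nhds ht₁)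
    have m5 : ∀ᶠ q : Cm p × Cm d in 𝓝 (t₁, z), q.2 ∈ ball (0 : Cm d) 3 :=
      (continuous_snd.tendsto (t₁, z)).eventually (isOpen_ball.mem_nhds hz)
    filter_upwards [k1.eventually_analyticAt, k1.continuousAt.eventually (isOpen_ball.mem_nhds k2),
      k3.eventually_nhds, m4, m5] with q m1 m2 m3 m4 m5
    exact (hV q.1 m4).law i j q.2 m5 γ θ m1 m2 m3 δ
  -- continuity
  have hcont : ∀ t₁ ∈ 𝓕.T, ∀ i δ, ∀ z ∈ ball (0 : Cm d) 3,
      ContinuousAt (fun q : Cm p × Cm d => S q.1 i δ q.2) (t₁, z) := by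
    intro t₁ ht₁ i δ z hz
    have hsq : Sq 𝓕 (𝓝 t₁) id t₁ S := by
      refine ⟨tendsto_id, ?_, fun i j z hz γ θ k1 k2 k3 δ => ⟨0, ?_⟩⟩
      · filter_upwards [𝓕.isOpen.mem_nhds ht₁] with t ht using (hV t ht).hol
      · refine tendsto_const_nhds.congr' ?_
        rw [← nhds_prod_eq]
        filter_upwards [hrule t₁ ht₁ i j z hz γ θ k1 k2 k3 δ] with q hq
        simp only [id_eq]
        rw [hq]; simp
    have h0 : Tendsto (fun t => S t i₀ 1 0) (𝓝 t₁) (𝓝 1) := by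
      refine tendsto_const_nhds.congr' ?_
      filter_upwards [𝓕.isOpen.mem_nhds ht₁] with t ht using (hS t ht).2.symm
    obtain ⟨v, -, hv⟩ := hsq.conv ht₁ (hV t₁ ht₁) hz₀ h0
    have h1 := hv i δ z hz
    rw [← nhds_prod_eq] at h1
    exact continuousAt_of_tendsto_nhds h1
  -- difference quotients
  have hdiff : ∀ t₁ ∈ 𝓕.T, ∀ x : Cm p, ∀ i δ, ∀ z ∈ ball (0 : Cm d) 3,
      DifferentiableAt ℂ (fun s : ℂ => S (t₁ + s • x) i δ z) 0 := by
    intro t₁ ht₁ x i δ z hz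
    have hlim0 : Tendsto (fun s : ℂ => t₁ + s • x) (𝓝 0) (𝓝 t₁) := by
      have : Continuous fun s : ℂ => t₁ + s • x := by fun_prop
      simpa using this.tendsto 0
    have hlim : Tendsto (fun s : ℂ => t₁ + s • x) (𝓝[≠] (0 : ℂ)) (𝓝 t₁) :=
      hlim0.mono_left nhdsWithin_le_nhds
    have hTe : ∀ᶠ s : ℂ in 𝓝[≠] (0 : ℂ), t₁ + s • x ∈ 𝓕.T :=
      hlim.eventually (𝓕.isOpen.mem_nhds ht₁)
    have hsq : Sq 𝓕 (𝓝[≠] (0 : ℂ)) (fun s => t₁ + s • x) t₁
        (fun s i δ z => s⁻¹ * (S (t₁ + s • x) i δ z - S t₁ i δ z)) := by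
      refine ⟨hlim, ?_, fun i j z hz γ θ k1 k2 k3 δ => ?_⟩
      · filter_upwards [hTe] with s hs i δ
        exact (((hV _ hs).hol i δ).sub ((hV t₁ ht₁).hol i δ)).const_mul _
      · have hua : AnalyticAt ℂ (S t₁ j (δ * γ)) (θ (t₁, z)) :=
          MF.analyticAt_of_differentiableOn isOpen_ball ((hV t₁ ht₁).hol j (δ * γ)) k2
        have hJ : AnalyticAt ℂ (Jt θ) (t₁, z) := analyticAt_Jt k1
        set G : Cm p × Cm d → ℂ := fun q => S t₁ j (δ * γ) (θ q) * Jt θ q with hG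
        have hGa : AnalyticAt ℂ G (t₁, z) := by
          have e4 : AnalyticAt ℂ (fun q => S t₁ j (δ * γ) (θ q)) (t₁, z) := hua.comp k1
          exact e4.mul hJ
        have hGs := hGa.hasStrictFDerivAt
        refine ⟨fderiv ℂ G (t₁, z) (x, 0), ?_⟩
        have hx : Tendsto (fun q : ℂ × Cm d => (t₁ + q.1 • x, q.2)) (𝓝[≠] (0 : ℂ) ×ˢ 𝓝 z)
            (𝓝 (t₁, z)) := by
          rw [nhds_prod_eq]
          exact (hlim.comp tendsto_fst).prodMk tendsto_snd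
        have hy : Tendsto (fun q : ℂ × Cm d => (t₁, q.2)) (𝓝[≠] (0 : ℂ) ×ˢ 𝓝 z)
            (𝓝 (t₁, z)) := by
          rw [nhds_prod_eq]
          exact tendsto_const_nhds.prodMk tendsto_snd
        have hne : ∀ᶠ q : ℂ × Cm d in 𝓝[≠] (0 : ℂ) ×ˢ 𝓝 z, q.1 ≠ 0 :=
          tendsto_fst.eventually self_mem_nhdsWithin
        have key : Tendsto (fun q : ℂ × Cm d => q.1⁻¹ * (G (t₁ + q.1 • x, q.2) - G (t₁, q.2)))
            (𝓝[≠] (0 : ℂ) ×ˢ 𝓝 z) (𝓝 (fderiv ℂ G (t₁, z) (x, 0))) := by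
          have h4 : (fun q : ℂ × Cm d => G (t₁ + q.1 • x, q.2) - G (t₁, q.2) -
              fderiv ℂ G (t₁, z) ((t₁ + q.1 • x, q.2) - (t₁, q.2))) =o[𝓝[≠] (0 : ℂ) ×ˢ 𝓝 z]
              fun q : ℂ × Cm d => ((t₁ + q.1 • x, q.2) - (t₁, q.2) : Cm p × Cm d) :=
            hGs.isLittleO.comp_tendsto (hx.prodMk_nhds hy)
          have h5 : ∀ q : ℂ × Cm d, ((t₁ + q.1 • x, q.2) - (t₁, q.2) : Cm p × Cm d) =
              q.1 • (x, (0 : Cm d)) := by
            intro q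
            ext <;> simp
          have h6 : (fun q : ℂ × Cm d => ((t₁ + q.1 • x, q.2) - (t₁, q.2) : Cm p × Cm d))
              =O[𝓝[≠] (0 : ℂ) ×ˢ 𝓝 z] fun q : ℂ × Cm d => q.1 := by
            refine Asymptotics.IsBigO.of_bound ‖(x, (0 : Cm d))‖ (Eventually.of_forall fun q => ?_)
            rw [h5, norm_smul, mul_comm]
          have h7 := (h4.trans_isBigO h6).tendsto_inv_smul_nhds_zero
          have h8 := h7.add_const (fderiv ℂ G (t₁, z) (x, 0))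
          rw [zero_add] at h8
          refine h8.congr' ?_
          filter_upwards [hne] with q hq
          rw [h5, map_smul, smul_eq_mul, smul_eq_mul]
          field_simp
          ring
        refine key.congr' ?_
        have hr := hrule t₁ ht₁ i j z hz γ θ k1 k2 k3 δ
        filter_upwards [hx.eventually hr, hy.eventually hr] with q m1 m2
        simp only [hG] at m1 m2 ⊢
        rw [m1, m2]
        ring
    have h0 : Tendsto (fun s : ℂ => s⁻¹ * (S (t₁ + s • x) i₀ 1 0 - S t₁ i₀ 1 0)) (𝓝[≠] (0 : ℂ))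
        (𝓝 0) := by
      refine tendsto_const_nhds.congr' ?_
      filter_upwards [hTe] with s hs
      rw [(hS _ hs).2, (hS _ ht₁).2]; simp
    obtain ⟨v, -, hv⟩ := hsq.conv ht₁ (hV t₁ ht₁) hz₀ h0
    have h1 := (hv i δ z hz).comp
      ((tendsto_id (x := 𝓝[≠] (0 : ℂ))).prodMk (tendsto_const_nhds (x := z)))
    have h5 : HasDerivAt (fun s : ℂ => S (t₁ + s • x) i δ z) (v i δ z) 0 := by
      rw [hasDerivAt_iff_tendsto_slope_zero]
      refine h1.congr fun s => ?_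
      simp
    exact h5.differentiableAt
  refine ⟨fun i δ q => S q.1 i δ q.2, fun t ht => hV t ht, fun i δ t ht z hz => ?_⟩
  have hO : IsOpen (𝓕.T ×ˢ ball (0 : Cm d) 3) := 𝓕.isOpen.prod isOpen_ball
  refine MF.analyticAt_of_differentiableOn hO ?_ ⟨ht, hz⟩
  refine H603.K.osgood_dir ((Pi.basisFun ℂ (Fin p)).prod (Pi.basisFun ℂ (Fin d))) hO
    (fun x hx => hcont x.1 hx.1 i δ x.2 hx.2) fun x hx k => ?_
  rcases k with k | k
  · simp only [Module.Basis.prod_apply, LinearMap.coe_inl, LinearMap.coe_inr, Sum.elim_inl,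
      Function.comp_apply, Prod.smul_mk, smul_zero, Prod.fst_add, Prod.snd_add, add_zero]
    exact hdiff x.1 hx.1 _ i δ x.2 hx.2
  · simp only [Module.Basis.prod_apply, LinearMap.coe_inl, LinearMap.coe_inr, Sum.elim_inr,
      Function.comp_apply, Prod.smul_mk, smul_zero, Prod.fst_add, Prod.snd_add, add_zero]
    have h1 : DifferentiableAt ℂ (S x.1 i δ) (x.2 + (0 : ℂ) • (Pi.basisFun ℂ (Fin d)) k) := by
      rw [zero_smul, add_zero]
      exact ((hV x.1 hx.1).hol i δ).differentiableAt (isOpen_ball.mem_nhds hx.2)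
    have h2 : DifferentiableAt ℂ (fun s : ℂ => x.2 + s • (Pi.basisFun ℂ (Fin d)) k) 0 := by
      fun_prop
    exact DifferentiableAt.comp (g := S x.1 i δ)
      (f := fun s : ℂ => x.2 + s • (Pi.basisFun ℂ (Fin d)) k) 0 h1 h2

end Vale.Agent.P281.H364.S
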