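import Vale.Agent.P281.H364.S.Rat

/-!
# P281, project T-S, block D2 (helper364): convergence of forms
-/

open Set Filter Metric
open scoped Topology

noncomputable section

set_option linter.unusedSectionVars false

namespace Vale.Agent.P281.H364.S

open Vale.Agent.P281.H64.TK
open Vale.Agent.P281.H64 (Cm)
open Vale.Agent.P299.H720 (LocBdd montel_full)

variable {p d : ℕ} {E Γ : Type} [TopologicalSpace E] [Group Γ] [MulAction Γ E]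
variable {𝓕 : Fam p d E Γ} {t₁ : Cm p}

/-- `g` is the limit of `f` along `W`, for all sequences of points -/
def Lm {κ : Type*} (𝓕 : Fam p d E Γ) (W : Filter κ) (f : κ → Fin 𝓕.N → Γ → Cm d → ℂ)
    (g : Fin 𝓕.N → Γ → Cm d → ℂ) : Prop :=
  ∀ i δ, ∀ x ∈ ball (0 : Cm d) 3, ∀ u : κ → Cm d, Tendsto u W (𝓝 x) →
    Tendsto (fun k => f k i δ (u k)) W (𝓝 (g i δ x))

/-- the defect of the limit -/
theorem Lm.defect {κ : Type*} {W : Filter κ} [W.NeBot] {τ : κ → Cm p}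
    {f : κ → Fin 𝓕.N → Γ → Cm d → ℂ} {g : Fin 𝓕.N → Γ → Cm d → ℂ} (hg : Lm 𝓕 W f g)
    (hτ : Tendsto τ W (𝓝 t₁)) {i j : Fin 𝓕.N} {z : Cm d} (hz : z ∈ ball (0 : Cm d) 3)
    {γ : Γ} {θ : Cm p × Cm d → Cm d} (h1 : AnalyticAt ℂ θ (t₁, z))
    (h2 : θ (t₁, z) ∈ ball (0 : Cm d) 3) {δ : Γ} {B : ℂ}
    (hB : Tendsto (fun q : κ × Cm d => f q.1 i δ q.2 -
        f q.1 j (δ * γ) (θ (τ q.1, q.2)) * Jt θ (τ q.1, q.2)) (W ×ˢ 𝓝 z) (𝓝 B)) :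
    g i δ z - g j (δ * γ) (θ (t₁, z)) * Jt θ (t₁, z) = B := by
  have h3 : Tendsto (fun k : κ => (k, z)) W (W ×ˢ 𝓝 z) :=
    tendsto_id.prodMk tendsto_const_nhds
  have h4 : Tendsto (fun k : κ => (τ k, z)) W (𝓝 (t₁, z)) :=
    hτ.prodMk_nhds tendsto_const_nhds
  have h5 : Tendsto (fun k => θ (τ k, z)) W (𝓝 (θ (t₁, z))) := h1.continuousAt.tendsto.comp h4
  have h6 : Tendsto (fun k => Jt θ (τ k, z)) W (𝓝 (Jt θ (t₁, z))) :=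
    (continuousAt_Jt h1).tendsto.comp h4
  have h7 := (hg i δ z hz _ tendsto_const_nhds).sub ((hg j (δ * γ) _ h2 _ h5).mul h6)
  exact tendsto_nhds_unique h7 (hB.comp h3)

theorem exists_lm {κ : Type*} {W : Ultrafilter κ} {f : κ → Fin 𝓕.N → Γ → Cm d → ℂ}
    (h : ∀ i δ, LocBdd (W : Filter κ) (fun k => f k i δ) (ball 0 3)) :
    ∃ g : Fin 𝓕.N → Γ → Cm d → ℂ, (∀ i δ, DifferentiableOn ℂ (g i δ) (ball 0 3)) ∧
      Lm 𝓕 (W : Filter κ) f g := by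
  choose g h1 _ h3 using fun i δ => montel_full W isOpen_ball (h i δ)
  exact ⟨g, h1, fun i δ x hx u hu => h3 i δ x hx u hu⟩

/-- maxima over the closed unit balls -/
theorem exists_max [Finite Γ] [Nonempty (Fin 𝓕.N)] {f : Fin 𝓕.N → Γ → Cm d → ℂ}
    (hf : ∀ i δ, DifferentiableOn ℂ (f i δ) (ball 0 3)) :
    ∃ (a : Fin 𝓕.N × Γ) (ζ : Cm d), ‖ζ‖ ≤ 1 ∧ ∀ i δ, ∀ z : Cm d, ‖z‖ ≤ 1 →
      ‖f i δ z‖ ≤ ‖f a.1 a.2 ζ‖ := by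
  have h1 : ∀ b : Fin 𝓕.N × Γ, ∃ ζ : Cm d, ‖ζ‖ ≤ 1 ∧ ∀ z : Cm d, ‖z‖ ≤ 1 →
      ‖f b.1 b.2 z‖ ≤ ‖f b.1 b.2 ζ‖ := by
    intro b
    have hcont : ContinuousOn (fun z => ‖f b.1 b.2 z‖) (closedBall (0 : Cm d) 1) :=
      ((hf b.1 b.2).continuousOn.mono fun z hz => ball1 (mem_closedBall_zero_iff.1 hz)).norm
    obtain ⟨ζ, hζ, hm⟩ := (isCompact_closedBall (0 : Cm d) 1).exists_isMaxOn
      ⟨0, mem_closedBall_self zero_le_one⟩ hcont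
    exact ⟨ζ, mem_closedBall_zero_iff.1 hζ, fun z hz => hm (mem_closedBall_zero_iff.2 hz)⟩
  choose ζ hζ hm using h1
  obtain ⟨a, ha⟩ := Finite.exists_max fun b : Fin 𝓕.N × Γ => ‖f b.1 b.2 (ζ b)‖
  exact ⟨a, ζ a, hζ a, fun i δ z hz => (hm (i, δ) z hz).trans (ha (i, δ))⟩

/-- a form which vanishes at the point `z₀` of the sheet `(i₀, δ₀)` is zero -/
def Sep (𝓕 : Fam p d E Γ) (t₁ : Cm p) (i₀ : Fin 𝓕.N) (δ₀ : Γ) (z₀ : Cm d) : Prop :=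
  ∀ g : Fin 𝓕.N → Γ → Cm d → ℂ, HForm 𝓕 t₁ g → g i₀ δ₀ z₀ = 0 →
    ∀ i δ, ∀ z ∈ ball (0 : Cm d) 3, g i δ z = 0

theorem Sq.bdd' [Finite Γ] (ht : t₁ ∈ 𝓕.T)
    {κ : Type*} {W : Ultrafilter κ}
    {τ : κ → Cm p} {f : κ → Fin 𝓕.N → Γ → Cm d → ℂ} (h : Sq 𝓕 (W : Filter κ) τ t₁ f)
    {i₀ : Fin 𝓕.N} {δ₀ : Γ} {z₀ : Cm d} (hu : Sep 𝓕 t₁ i₀ δ₀ z₀)
    (hz₀ : z₀ ∈ ball (0 : Cm d) 3) {a₀ : ℂ}
    (h0 : Tendsto (fun k => f k i₀ δ₀ z₀) W (𝓝 a₀)) :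
    ∃ C : ℝ, ∀ᶠ k in (W : Filter κ), ∀ i δ, ∀ z : Cm d, ‖z‖ ≤ 1 → ‖f k i δ z‖ ≤ C := by
  classical
  have : Nonempty (Fin 𝓕.N) := ⟨i₀⟩
  have h1 : ∀ k : κ, ∃ (a : Fin 𝓕.N × Γ) (ζ : Cm d), ‖ζ‖ ≤ 1 ∧
      ((∀ i δ, DifferentiableOn ℂ (f k i δ) (ball 0 3)) → ∀ i δ, ∀ z : Cm d, ‖z‖ ≤ 1 →
        ‖f k i δ z‖ ≤ ‖f k a.1 a.2 ζ‖) := by
    intro k
    by_cases hk : ∀ i δ, DifferentiableOn ℂ (f k i δ) (ball 0 3)
    · obtain ⟨a, ζ, h1, h2⟩ := exists_max hk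
      exact ⟨a, ζ, h1, fun _ => h2⟩
    · exact ⟨(i₀, δ₀), 0, by simp, fun h => absurd h hk⟩
  choose a ζ hζ hm using h1
  set M : κ → ℝ := fun k => ‖f k (a k).1 (a k).2 (ζ k)‖ with hM
  by_cases hb : ∃ C, ∀ᶠ k in (W : Filter κ), M k ≤ C
  · obtain ⟨C, hC⟩ := hb
    refine ⟨C, ?_⟩
    filter_upwards [hC, h.hol] with k k1 k2 i δ z hz
    exact (hm k k2 i δ z hz).trans k1
  exfalso
  have hb' : ∀ C, ∀ᶠ k in (W : Filter κ), C < M k := by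
    intro C
    by_contra hcon
    refine hb ⟨C, ?_⟩
    have := Ultrafilter.eventually_not.2 hcon
    filter_upwards [this] with k hk using not_lt.1 hk
  have hMt : Tendsto M W atTop := tendsto_atTop.2 fun C => by
    filter_upwards [hb' C] with k hk using hk.le
  have hinv : Tendsto (fun k => ((M k : ℝ) : ℂ)⁻¹) W (𝓝 0) := by
    have h2 : Tendsto (fun k => ((M k)⁻¹ : ℝ)) W (𝓝 0) := hMt.inv_tendsto_atTop
    have h3 := (Complex.continuous_ofReal.tendsto 0).comp h2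
    rw [Complex.ofReal_zero] at h3
    refine h3.congr fun k => ?_
    simp
  set G : κ → Fin 𝓕.N → Γ → Cm d → ℂ := fun k i δ z => ((M k : ℝ) : ℂ)⁻¹ * f k i δ z with hG
  have hGs : Sq 𝓕 (W : Filter κ) τ t₁ G := h.smul hinv
  have hpos : ∀ᶠ k in (W : Filter κ), 0 < M k := hb' 0
  have hG1 : ∀ᶠ k in (W : Filter κ), ∀ i δ, ∀ z : Cm d, ‖z‖ ≤ 1 → ‖G k i δ z‖ ≤ 1 := by
    filter_upwards [hpos, h.hol] with k k1 k2 i δ z hz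
    rw [hG]
    simp only [norm_mul, norm_inv, Complex.norm_real, Real.norm_eq_abs, abs_of_pos k1]
    rw [inv_mul_le_one₀ k1]
    exact hm k k2 i δ z hz
  obtain ⟨g, hg1, hg2⟩ := exists_lm (fun i δ => hGs.locBdd ht hG1 i δ)
  have hgF : HForm 𝓕 t₁ g := by
    refine ⟨hg1, fun i j z hz γ θ k1 k2 k3 δ => ?_⟩
    obtain ⟨B, hB⟩ := h.law i j z hz γ θ k1 k2 k3 δ
    have h3 : Tendsto (fun q : κ × Cm d => G q.1 i δ q.2 -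
        G q.1 j (δ * γ) (θ (τ q.1, q.2)) * Jt θ (τ q.1, q.2)) ((W : Filter κ) ×ˢ 𝓝 z) (𝓝 0) := by
      have h4 := (hinv.comp (tendsto_fst (f := (W : Filter κ)) (g := 𝓝 z))).mul hB
      rw [zero_mul] at h4
      refine h4.congr fun q => ?_
      simp only [Function.comp_apply, hG]
      ring
    have h5 := hg2.defect h.lim hz k1 k2 h3
    exact sub_eq_zero.1 h5
  have hg0 : g i₀ δ₀ z₀ = 0 := by
    have h3 := hg2 i₀ δ₀ z₀ hz₀ _ tendsto_const_nhds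
    have h4 := hinv.mul h0
    rw [zero_mul] at h4
    exact tendsto_nhds_unique h3 h4
  have hgz := hu g hgF hg0
  -- the maximum points converge
  obtain ⟨a₁, ha₁⟩ : ∃ a₁, ∀ᶠ k in (W : Filter κ), a k = a₁ := by
    have h3 : (univ : Set (Fin 𝓕.N × Γ)) ∈ W.map a := univ_mem
    obtain ⟨b, -, hb⟩ := (Ultrafilter.finite_biUnion_mem_iff (f := W.map a)
      (s := fun b : Fin 𝓕.N × Γ => ({b} : Set _)) (Set.finite_univ)).1 (by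
        rw [show (⋃ b ∈ (univ : Set (Fin 𝓕.N × Γ)), ({b} : Set _)) = univ by ext x; simp]
        exact h3)
    exact ⟨b, hb⟩
  obtain ⟨ζ₁, hζ₁, hζl⟩ := (isCompact_closedBall (0 : Cm d) 1).ultrafilter_le_nhds (W.map ζ) (by
    rw [le_principal_iff]
    exact Eventually.of_forall (f := (W : Filter κ))
      fun k => mem_closedBall_zero_iff.2 (hζ k))
  have h5 : Tendsto (fun k => G k a₁.1 a₁.2 (ζ k)) W (𝓝 0) := by
    have h6 := hg2 a₁.1 a₁.2 ζ₁ (ball1 (mem_closedBall_zero_iff.1 hζ₁)) ζ hζl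
    rwa [hgz _ _ _ (ball1 (mem_closedBall_zero_iff.1 hζ₁))] at h6
  have h6 : ∀ᶠ k in (W : Filter κ), ‖G k a₁.1 a₁.2 (ζ k)‖ = 1 := by
    filter_upwards [ha₁, hpos] with k k1 k2
    rw [← k1, hG]
    simp only [norm_mul, norm_inv, Complex.norm_real, Real.norm_eq_abs, abs_of_pos k2]
    exact inv_mul_cancel₀ k2.ne'
  have h7 : Tendsto (fun k => ‖G k a₁.1 a₁.2 (ζ k)‖) W (𝓝 1) :=
    tendsto_const_nhds.congr' (h6.mono fun k hk => hk.symm)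
  have h8 := tendsto_nhds_unique h7 h5.norm
  simp at h8

/-- **Convergence**: if the values at one point converge, the forms converge. -/
theorem Sq.conv' [Finite Γ] (ht : t₁ ∈ 𝓕.T)
    {ι : Type*} {l : Filter ι} [l.NeBot]
    {τ : ι → Cm p} {f : ι → Fin 𝓕.N → Γ → Cm d → ℂ} (h : Sq 𝓕 l τ t₁ f)
    {i₀ : Fin 𝓕.N} {δ₀ : Γ} {z₀ : Cm d} (hu : Sep 𝓕 t₁ i₀ δ₀ z₀)
    (hz₀ : z₀ ∈ ball (0 : Cm d) 3) {a₀ : ℂ}
    (h0 : Tendsto (fun n => f n i₀ δ₀ z₀) l (𝓝 a₀)) :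
    ∃ v : Fin 𝓕.N → Γ → Cm d → ℂ, (∀ i δ, DifferentiableOn ℂ (v i δ) (ball 0 3)) ∧
      ∀ i δ, ∀ x ∈ ball (0 : Cm d) 3,
        Tendsto (fun q : ι × Cm d => f q.1 i δ q.2) (l ×ˢ 𝓝 x) (𝓝 (v i δ x)) := by
  -- limits along ultrafilters
  have hex : ∀ {κ : Type _} (W : Ultrafilter κ) (φ : κ → ι), Tendsto φ W l →
      ∃ g : Fin 𝓕.N → Γ → Cm d → ℂ, (∀ i δ, DifferentiableOn ℂ (g i δ) (ball 0 3)) ∧
        Lm 𝓕 (W : Filter κ) (fun k => f (φ k)) g := by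
    intro κ W φ hφ
    have h1 := h.comp hφ
    obtain ⟨C, hC⟩ := h1.bdd' ht hu hz₀ (h0.comp hφ)
    exact exists_lm (fun i δ => h1.locBdd ht hC i δ)
  have huniq : ∀ {κ κ' : Type _} (W : Ultrafilter κ) (φ : κ → ι) (W' : Ultrafilter κ')
      (φ' : κ' → ι), Tendsto φ W l → Tendsto φ' W' l → ∀ g g' : Fin 𝓕.N → Γ → Cm d → ℂ,
      (∀ i δ, DifferentiableOn ℂ (g i δ) (ball 0 3)) → Lm 𝓕 (W : Filter κ) (fun k => f (φ k)) g →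
      (∀ i δ, DifferentiableOn ℂ (g' i δ) (ball 0 3)) →
      Lm 𝓕 (W' : Filter κ') (fun k => f (φ' k)) g' →
      ∀ i δ, ∀ z ∈ ball (0 : Cm d) 3, g i δ z = g' i δ z := by
    intro κ κ' W φ W' φ' hφ hφ' g g' k1 k2 k3 k4
    have h1 : HForm 𝓕 t₁ (fun i δ z => g i δ z - g' i δ z) := by
      refine ⟨fun i δ => (k1 i δ).sub (k3 i δ), fun i j z hz γ θ m1 m2 m3 δ => ?_⟩
      obtain ⟨B, hB⟩ := h.law i j z hz γ θ m1 m2 m3 δ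
      have e1 := k2.defect (h.lim.comp hφ) hz m1 m2 (hB.comp (hφ.prodMap tendsto_id))
      have e2 := k4.defect (h.lim.comp hφ') hz m1 m2 (hB.comp (hφ'.prodMap tendsto_id))
      linear_combination e1 - e2
    have h2 : g i₀ δ₀ z₀ - g' i₀ δ₀ z₀ = 0 := by
      have e1 := tendsto_nhds_unique (k2 i₀ δ₀ z₀ hz₀ _ tendsto_const_nhds) (h0.comp hφ)
      have e2 := tendsto_nhds_unique (k4 i₀ δ₀ z₀ hz₀ _ tendsto_const_nhds) (h0.comp hφ')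
      rw [e1, e2, sub_self]
    intro i δ z hz
    exact sub_eq_zero.1 (hu _ h1 h2 i δ z hz)
  obtain ⟨v, hv1, hv2⟩ := hex (Ultrafilter.of l) id (Ultrafilter.of_le l)
  refine ⟨v, hv1, fun i δ x hx => ?_⟩
  rw [tendsto_iff_ultrafilter]
  intro W hW
  have hφ : Tendsto (Prod.fst : ι × Cm d → ι) (W : Filter (ι × Cm d)) l :=
    tendsto_fst.mono_left hW
  have hu : Tendsto (Prod.snd : ι × Cm d → Cm d) (W : Filter (ι × Cm d)) (𝓝 x) :=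
    tendsto_snd.mono_left hW
  obtain ⟨g, hg1, hg2⟩ := hex W Prod.fst hφ
  have h1 := hg2 i δ x hx _ hu
  rwa [huniq W Prod.fst (Ultrafilter.of l) id hφ (Ultrafilter.of_le l) g v hg1 hg2 hv1 hv2 i δ x
    hx] at h1

/-- **Convergence**, on a member with a nowhere zero form. -/
theorem Sq.conv [Finite Γ] [ContinuousConstSMul Γ E] [PreconnectedSpace E] (ht : t₁ ∈ 𝓕.T)
    {s : Fin 𝓕.N → Γ → Cm d → ℂ} (hs : VForm 𝓕 t₁ s) {ι : Type*} {l : Filter ι} [l.NeBot]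
    {τ : ι → Cm p} {f : ι → Fin 𝓕.N → Γ → Cm d → ℂ} (h : Sq 𝓕 l τ t₁ f)
    {i₀ : Fin 𝓕.N} {δ₀ : Γ} {z₀ : Cm d} (hz₀ : z₀ ∈ ball (0 : Cm d) 3) {a₀ : ℂ}
    (h0 : Tendsto (fun n => f n i₀ δ₀ z₀) l (𝓝 a₀)) :
    ∃ v : Fin 𝓕.N → Γ → Cm d → ℂ, (∀ i δ, DifferentiableOn ℂ (v i δ) (ball 0 3)) ∧
      ∀ i δ, ∀ x ∈ ball (0 : Cm d) 3,
        Tendsto (fun q : ι × Cm d => f q.1 i δ q.2) (l ×ˢ 𝓝 x) (𝓝 (v i δ x)) :=
  h.conv' ht (fun _ hg hg0 => eq_zero_of ht hs hg hz₀ hg0) hz₀ h0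

end Vale.Agent.P281.H364.S
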