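import Vale.Agent.P281.H364.S.RelVol

/-!
# P281, project T-S, block D2 (helper364): the relative form of top degree, in the letters of
`H64/TK/Defs`
-/

open Set Filter Metric
open scoped Topology

noncomputable section

set_option linter.unusedSectionVars false

namespace Vale.Agent.P281.H364.S

open Vale.Agent.P281.H64.TK
open Vale.Agent.P281.H64 (Cm)
open Vale.Agent.P281.H603.K (exists_trans)

variable {p d : ℕ} {E Γ : Type} [TopologicalSpace E] [Group Γ] [MulAction Γ E]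
variable {𝓕 : Fam p d E Γ} {t : Cm p}

/-- `s i δ` is the coefficient, in the chart `z ↦ δ • σ i t z` of `E`, of a nowhere zero
holomorphic form of degree `d` on the member number `t`. -/
def IsVol (𝓕 : Fam p d E Γ) (t : Cm p) (s : Fin 𝓕.N → Γ → Cm d → ℂ) : Prop :=
  (∀ i δ, DifferentiableOn ℂ (s i δ) (ball 0 3)) ∧
  (∀ i δ, ∀ z ∈ ball (0 : Cm d) 3, s i δ z ≠ 0) ∧
  ∀ i j, ∀ z ∈ ball (0 : Cm d) 3, ∀ w ∈ ball (0 : Cm d) 3, ∀ (γ : Γ) (θ : Cm d → Cm d),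
    AnalyticAt ℂ θ z → θ z = w → (∀ᶠ u in 𝓝 z, 𝓕.σ i t u = γ • 𝓕.σ j t (θ u)) →
      ∀ δ, s i δ z = s j (δ * γ) w * (jac θ z).det

theorem jac_slice {θ : Cm p × Cm d → Cm d} {θ' : Cm d → Cm d} {z : Cm d}
    (h : AnalyticAt ℂ θ (t, z)) (he : θ' =ᶠ[𝓝 z] fun u => θ (t, u)) :
    (jac θ' z).det = Jt θ (t, z) := by
  rw [Jt_eq]
  congr 1
  ext a b
  show fderiv ℂ θ' z (Pi.single b 1) a = fderiv ℂ θ (t, z) (0, Pi.single b 1) a
  rw [he.fderiv_eq]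
  have h1 : HasFDerivAt (fun u : Cm d => (t, u)) (ContinuousLinearMap.inr ℂ (Cm p) (Cm d)) z :=
    hasFDerivAt_prodMk_right t z
  have h2 : HasFDerivAt (fun u : Cm d => θ (t, u))
      ((fderiv ℂ θ (t, z)).comp (ContinuousLinearMap.inr ℂ (Cm p) (Cm d))) z :=
    h.differentiableAt.hasFDerivAt.comp z h1
  rw [h2.fderiv]
  rfl

theorem isVol_iff (ht : t ∈ 𝓕.T) {s : Fin 𝓕.N → Γ → Cm d → ℂ} :
    IsVol 𝓕 t s ↔ VForm 𝓕 t s := by
  constructor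
  · rintro ⟨h1, h2, h3⟩
    refine ⟨⟨h1, fun i j z hz γ θ k1 k2 k3 δ => ?_⟩, h2⟩
    have hs : Tendsto (fun u : Cm d => (t, u)) (𝓝 z) (𝓝 (t, z)) :=
      (Continuous.prodMk_right t).tendsto z
    have k4 : AnalyticAt ℂ (fun u => θ (t, u)) z :=
      AnalyticAt.comp (g := θ) (f := fun u : Cm d => (t, u)) k1
        (analyticAt_const.prod analyticAt_id)
    have := h3 i j z hz (θ (t, z)) k2 γ (fun u => θ (t, u)) k4 rfl (hs.eventually k3) δ
    rw [this, jac_slice k1 (Filter.EventuallyEq.rfl)]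
  · rintro ⟨⟨h1, h3⟩, h2⟩
    refine ⟨h1, h2, fun i j z hz w hw γ θ k1 k2 k3 δ => ?_⟩
    have k4 : 𝓕.σ i t z = γ • 𝓕.σ j t w := by
      have := k3.self_of_nhds
      rwa [k2] at this
    obtain ⟨θ₂, m1, m2, m3⟩ := exists_trans 𝓕 ht hz hw k4
    have hs : Tendsto (fun u : Cm d => (t, u)) (𝓝 z) (𝓝 (t, z)) :=
      (Continuous.prodMk_right t).tendsto z
    have he : θ =ᶠ[𝓝 z] fun u => θ₂ (t, u) := by
      filter_upwards [hs.eventually m3, k3, k1.continuousAt.eventually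
        (isOpen_ball.mem_nhds (show θ z ∈ ball (0 : Cm d) 3 by rw [k2]; exact hw))] with u n1 n2 n3
      exact (n1.2.2.2.2 _ n3 γ n2).2
    have := h3 i j z hz γ θ₂ m1 (by rw [m2]; exact hw) (m3.mono fun q hq => hq.2.2.2.1) δ
    rw [this, jac_slice m1 he, m2]

/-- **D2**: if the members number `t ∈ D`, `D` dense, have nowhere zero holomorphic forms of degree
`d`, then all the members have one, and these can be chosen holomorphic in the parameter. -/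
theorem relVol [Finite Γ] [ContinuousConstSMul Γ E] [ConnectedSpace E]
    {D : Set (Cm p)} (hD : D ⊆ 𝓕.T) (hd : 𝓕.T ⊆ closure D) (h : ∀ t ∈ D, ∃ s, IsVol 𝓕 t s) :
    ∃ s : Fin 𝓕.N → Γ → Cm p × Cm d → ℂ, (∀ t ∈ 𝓕.T, IsVol 𝓕 t (fun i δ z => s i δ (t, z))) ∧
      ∀ i δ, ∀ t ∈ 𝓕.T, ∀ z ∈ ball (0 : Cm d) 3, AnalyticAt ℂ (s i δ) (t, z) := by
  obtain ⟨s, h1, h2⟩ := relForm hd fun t ht => by
    obtain ⟨s, hs⟩ := h t ht
    exact ⟨s, (isVol_iff (hD ht)).1 hs⟩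
  exact ⟨s, fun t ht => (isVol_iff ht).2 (h1 t ht), h2⟩

/-- Two nowhere zero forms on the same member are proportional. -/
theorem IsVol.ratio [Finite Γ] [ContinuousConstSMul Γ E] [PreconnectedSpace E] (ht : t ∈ 𝓕.T)
    {s s' : Fin 𝓕.N → Γ → Cm d → ℂ} (hs : IsVol 𝓕 t s) (hs' : IsVol 𝓕 t s') :
    ∃ c : ℂ, ∀ i δ, ∀ z ∈ ball (0 : Cm d) 3, s' i δ z = c * s i δ z :=
  ratio_const ht ((isVol_iff ht).1 hs) ((isVol_iff ht).1 hs').toHForm

/-- The translate of a form by an element of `Γ`. -/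
theorem VForm.translate {s : Fin 𝓕.N → Γ → Cm d → ℂ} (hs : VForm 𝓕 t s) (γ : Γ) :
    VForm 𝓕 t (fun i δ => s i (γ * δ)) where
  hol i δ := hs.hol i (γ * δ)
  law i j z hz γ' θ h1 h2 h3 δ := by
    have := hs.law i j z hz γ' θ h1 h2 h3 (γ * δ)
    simp only
    rw [this, mul_assoc]
  ne i δ := hs.ne i (γ * δ)

/-- `Γ` acts on the relative form by a character of finite order. -/
theorem exists_char [Finite Γ] [ContinuousConstSMul Γ E] [ConnectedSpace E]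
    {s : Fin 𝓕.N → Γ → Cm p × Cm d → ℂ} (hs : ∀ t ∈ 𝓕.T, IsVol 𝓕 t (fun i δ z => s i δ (t, z)))
    (ha : ∀ i δ, ∀ t ∈ 𝓕.T, ∀ z ∈ ball (0 : Cm d) 3, AnalyticAt ℂ (s i δ) (t, z)) :
    ∃ χ : Γ → ℂ, (∀ γ, χ γ ^ Nat.card Γ = 1) ∧ ∀ t ∈ 𝓕.T, ∀ i γ δ, ∀ z ∈ ball (0 : Cm d) 3,
      s i (γ * δ) (t, z) = χ γ * s i δ (t, z) := by
  classical
  by_cases hT : 𝓕.T.Nonempty
  swap
  · rw [Set.not_nonempty_iff_eq_empty] at hT
    refine ⟨fun _ => 1, fun _ => one_pow _, fun t ht => ?_⟩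
    rw [hT] at ht; exact absurd ht (notMem_empty _)
  obtain ⟨t₀, ht₀⟩ := hT
  obtain ⟨e₁⟩ : Nonempty E := inferInstance
  obtain ⟨-, i₀, -⟩ := 𝓕.cover t₀ ht₀ e₁
  have hz₀ : (0 : Cm d) ∈ ball (0 : Cm d) 3 := mem_ball_self (by norm_num)
  have hex : ∀ (t : Cm p) (γ : Γ), ∃ c : ℂ, t ∈ 𝓕.T → ∀ i δ, ∀ z ∈ ball (0 : Cm d) 3,
      s i (γ * δ) (t, z) = c * s i δ (t, z) := by
    intro t γ
    by_cases ht : t ∈ 𝓕.T
    swap
    · exact ⟨0, fun h => absurd h ht⟩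
    have h1 := (isVol_iff ht).1 (hs t ht)
    obtain ⟨c, hc⟩ := ratio_const ht h1 (h1.translate γ).toHForm
    exact ⟨c, fun _ i δ z hz => hc i δ z hz⟩
  choose c hc using hex
  have hn : Nat.card Γ ≠ 0 := Nat.card_pos.ne'
  have hpow : ∀ t ∈ 𝓕.T, ∀ γ, ∀ n : ℕ, s i₀ (γ ^ n) (t, 0) = c t γ ^ n * s i₀ 1 (t, 0) := by
    intro t ht γ n
    induction n with
    | zero => simp
    | succ n ih => rw [pow_succ', hc t γ ht i₀ (γ ^ n) 0 hz₀, ih, pow_succ']; ring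
  have h1 : ∀ t ∈ 𝓕.T, ∀ γ, c t γ ^ Nat.card Γ = 1 := by
    intro t ht γ
    have h2 := hpow t ht γ (Nat.card Γ)
    rw [pow_card_eq_one'] at h2
    have h3 : s i₀ 1 (t, 0) ≠ 0 := (hs t ht).2.1 i₀ 1 0 hz₀
    have h4 : (c t γ ^ Nat.card Γ - 1) * s i₀ 1 (t, 0) = 0 := by linear_combination -h2
    exact sub_eq_zero.1 ((mul_eq_zero.1 h4).resolve_right h3)
  -- the character is locally constant, hence constant
  have hcont : ∀ γ, ContinuousOn (fun t => c t γ) 𝓕.T := by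
    intro γ t ht
    have h2 : ∀ᶠ t' in 𝓝 t, c t' γ = s i₀ γ (t', 0) / s i₀ 1 (t', 0) := by
      filter_upwards [𝓕.isOpen.mem_nhds ht] with t' ht'
      have h3 : s i₀ 1 (t', 0) ≠ 0 := (hs t' ht').2.1 i₀ 1 0 hz₀
      have h4 := hc t' γ ht' i₀ 1 0 hz₀
      rw [mul_one] at h4
      rw [h4, mul_div_cancel_right₀ _ h3]
    have h3 : Tendsto (fun t' : Cm p => (t', (0 : Cm d))) (𝓝 t) (𝓝 (t, 0)) :=
      (Continuous.prodMk_left (0 : Cm d)).tendsto t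
    have h4 : ContinuousAt (fun t' => s i₀ γ (t', 0) / s i₀ 1 (t', 0)) t :=
      ((ha i₀ γ t ht 0 hz₀).continuousAt.tendsto.comp h3).div
        ((ha i₀ 1 t ht 0 hz₀).continuousAt.tendsto.comp h3) ((hs t ht).2.1 i₀ 1 0 hz₀)
    exact (h4.congr (h2.mono fun t' ht' => ht'.symm)).continuousWithinAt
  have hfin : {c : ℂ | c ^ Nat.card Γ = 1}.Finite := by
    have : {c : ℂ | c ^ Nat.card Γ = 1} ⊆
        ((Polynomial.X ^ Nat.card Γ - Polynomial.C (1 : ℂ)).roots.toFinset : Set ℂ) := by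
      intro c hc
      rw [Finset.mem_coe, Multiset.mem_toFinset, Polynomial.mem_roots
        (Polynomial.X_pow_sub_C_ne_zero (Nat.pos_of_ne_zero hn) 1)]
      have hc' : c ^ Nat.card Γ = 1 := hc
      simp [Polynomial.IsRoot.def, hc']
    exact (Finset.finite_toSet _).subset this
  refine ⟨c t₀, h1 t₀ ht₀, fun t ht i γ δ z hz => ?_⟩
  rw [hc t γ ht i δ z hz]
  congr 1
  exact 𝓕.conn.constant_of_mapsTo hfin.isDiscrete (hcont γ) (fun t ht => h1 t ht γ) ht ht₀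

end Vale.Agent.P281.H364.S
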